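import Mathlib

/-!
Derandomised Chernoff sampling.
-/

namespace Vale.Agent.P249

open MeasureTheory Finset

variable {Ω : Type*} [MeasurableSpace Ω]

theorem exists_seq (ν : Measure Ω) [IsProbabilityMeasure ν] {κ : Type*} [Fintype κ]
    (Z : κ → Ω → ℝ) (hZi : ∀ e, Integrable (Z e) ν) (hZ0 : ∀ e ω, 0 ≤ Z e ω)
    (hZ1 : ∀ e, ∫ ω, Z e ω ∂ν ≤ 1) (N : ℕ) :
    ∀ c : κ → ℝ, (∀ e, 0 ≤ c e) → ∃ ω : Fin N → Ω,
      ∑ e, c e * ∏ j, Z e (ω j) ≤ ∑ e, c e := by
  induction N with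
  | zero =>
    intro c _
    exact ⟨Fin.elim0, by simp⟩
  | succ N ih =>
    intro c hc
    have hint : Integrable (fun ω => ∑ e, c e * Z e ω) ν :=
      integrable_finsetSum _ fun e _ => (hZi e).const_mul _
    obtain ⟨ω0, h0⟩ := exists_le_integral hint
    have h1 : ∫ ω, ∑ e, c e * Z e ω ∂ν ≤ ∑ e, c e := by
      rw [integral_finsetSum _ fun e _ => (hZi e).const_mul _]
      apply Finset.sum_le_sum
      intro e _
      rw [integral_const_mul]
      calc c e * ∫ ω, Z e ω ∂ν ≤ c e * 1 := mul_le_mul_of_nonneg_left (hZ1 e) (hc e)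
        _ = c e := mul_one _
    obtain ⟨ω, hω⟩ := ih (fun e => c e * Z e ω0) fun e => mul_nonneg (hc e) (hZ0 e ω0)
    refine ⟨Fin.cons ω0 ω, ?_⟩
    have e1 : ∀ e, c e * ∏ j, Z e ((Fin.cons ω0 ω : Fin (N + 1) → Ω) j)
        = c e * Z e ω0 * ∏ j, Z e (ω j) := by
      intro e
      rw [Fin.prod_univ_succ]
      simp [mul_assoc]
    simp_rw [e1]
    linarith

theorem exp_chord {t y L : ℝ} (hL : 0 < L) (h0 : 0 ≤ y) (h1 : y ≤ L) :
    Real.exp (t / L * y) ≤ 1 + y / L * (Real.exp t - 1) := by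
  have ha : 0 ≤ 1 - y / L := by
    have : y / L ≤ 1 := (div_le_one hL).mpr h1
    linarith
  have hb : 0 ≤ y / L := by positivity
  have hc := convexOn_exp.2 (Set.mem_univ (0 : ℝ)) (Set.mem_univ t) ha hb (by ring)
  simp only [smul_eq_mul, mul_zero, zero_add, Real.exp_zero, mul_one] at hc
  have e : t / L * y = y / L * t := by ring
  rw [e]
  linarith

theorem mgf_bound (ν : Measure Ω) [IsProbabilityMeasure ν] (Y : Ω → ℝ)
    (hYm : AEStronglyMeasurable Y ν) {L : ℝ} (hL : 0 < L) (hY0 : ∀ ω, 0 ≤ Y ω)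
    (hYL : ∀ ω, Y ω ≤ L) (hY1 : ∫ ω, Y ω ∂ν = 1) {t : ℝ} (ht : |t| ≤ 1) :
    Integrable (fun ω => Real.exp (t / L * Y ω)) ν ∧
      ∫ ω, Real.exp (t / L * Y ω) ∂ν ≤ Real.exp ((t + t ^ 2) / L) := by
  have hint : Integrable Y ν :=
    Integrable.of_bound hYm L (Filter.Eventually.of_forall fun ω => by
      rw [Real.norm_eq_abs, abs_of_nonneg (hY0 ω)]; exact hYL ω)
  have hm : AEStronglyMeasurable (fun ω => Real.exp (t / L * Y ω)) ν :=
    (Real.continuous_exp.comp (continuous_const.mul continuous_id)).comp_aestronglyMeasurable hYm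
  have hbd : ∀ ω, Real.exp (t / L * Y ω) ≤ 1 + Y ω / L * (Real.exp t - 1) :=
    fun ω => exp_chord hL (hY0 ω) (hYL ω)
  have hi2 : Integrable (fun ω => 1 + Y ω / L * (Real.exp t - 1)) ν :=
    (integrable_const _).add ((hint.div_const _).mul_const _)
  have hi1 : Integrable (fun ω => Real.exp (t / L * Y ω)) ν := by
    apply Integrable.mono' hi2 hm
    exact Filter.Eventually.of_forall fun ω => by
      rw [Real.norm_eq_abs, abs_of_pos (Real.exp_pos _)]; exact hbd ω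
  refine ⟨hi1, ?_⟩
  have h1 : ∫ ω, Real.exp (t / L * Y ω) ∂ν ≤ ∫ ω, (1 + Y ω / L * (Real.exp t - 1)) ∂ν :=
    integral_mono hi1 hi2 hbd
  have h2 : ∫ ω, (1 + Y ω / L * (Real.exp t - 1)) ∂ν = 1 + 1 / L * (Real.exp t - 1) := by
    rw [integral_add (integrable_const _) ((hint.div_const _).mul_const _), integral_mul_const,
      integral_div, hY1]
    simp
  rw [h2] at h1
  have h3 : Real.exp t - 1 ≤ t + t ^ 2 := by
    have := Real.abs_exp_sub_one_sub_id_le ht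
    have := (abs_le.mp this).2
    linarith
  calc ∫ ω, Real.exp (t / L * Y ω) ∂ν ≤ 1 + 1 / L * (Real.exp t - 1) := h1
    _ ≤ 1 + (t + t ^ 2) / L := by
        have : 1 / L * (Real.exp t - 1) ≤ 1 / L * (t + t ^ 2) :=
          mul_le_mul_of_nonneg_left h3 (by positivity)
        have e : 1 / L * (t + t ^ 2) = (t + t ^ 2) / L := by ring
        linarith
    _ ≤ Real.exp ((t + t ^ 2) / L) := by
        have := Real.add_one_le_exp ((t + t ^ 2) / L)
        linarith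

theorem exists_sample (ν : Measure Ω) [IsProbabilityMeasure ν] {κ : Type*} [Fintype κ]
    (Y : κ → Ω → ℝ) (hYm : ∀ e, AEStronglyMeasurable (Y e) ν) {L : ℝ} (hL : 0 < L)
    (hY0 : ∀ e ω, 0 ≤ Y e ω) (hYL : ∀ e ω, Y e ω ≤ L) (hY1 : ∀ e, ∫ ω, Y e ω ∂ν = 1)
    {δ : ℝ} (hδ0 : 0 < δ) (hδ1 : δ ≤ 1) (N : ℕ)
    (hN : 2 * (Fintype.card κ : ℝ) * Real.exp (-(N * δ ^ 2 / (4 * L))) < 1) :
    ∃ ω : Fin N → Ω, ∀ e, (1 - δ) * N ≤ ∑ j, Y e (ω j) ∧ ∑ j, Y e (ω j) ≤ (1 + δ) * N := by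
  set t : ℝ := δ / 2 with ht
  have ht1 : |t| ≤ 1 := by rw [ht, abs_of_pos (by positivity)]; linarith
  have ht2 : |-t| ≤ 1 := by rwa [abs_neg]
  let Z : κ ⊕ κ → Ω → ℝ := Sum.elim
    (fun e ω => Real.exp (t / L * Y e ω) / Real.exp ((t + t ^ 2) / L))
    (fun e ω => Real.exp (-t / L * Y e ω) / Real.exp ((-t + (-t) ^ 2) / L))
  have hZi : ∀ e, Integrable (Z e) ν := by
    rintro (e | e)
    · exact (mgf_bound ν (Y e) (hYm e) hL (hY0 e) (hYL e) (hY1 e) ht1).1.div_const _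
    · exact (mgf_bound ν (Y e) (hYm e) hL (hY0 e) (hYL e) (hY1 e) ht2).1.div_const _
  have hZ0 : ∀ e ω, 0 ≤ Z e ω := by
    rintro (e | e) ω
    · simp only [Z, Sum.elim_inl]; positivity
    · simp only [Z, Sum.elim_inr]; positivity
  have hZ1 : ∀ e, ∫ ω, Z e ω ∂ν ≤ 1 := by
    rintro (e | e)
    · simp only [Z, Sum.elim_inl]
      rw [integral_div, div_le_one (Real.exp_pos _)]
      exact (mgf_bound ν (Y e) (hYm e) hL (hY0 e) (hYL e) (hY1 e) ht1).2
    · simp only [Z, Sum.elim_inr]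
      rw [integral_div, div_le_one (Real.exp_pos _)]
      exact (mgf_bound ν (Y e) (hYm e) hL (hY0 e) (hYL e) (hY1 e) ht2).2
  obtain ⟨ω, hω⟩ := exists_seq ν Z hZi hZ0 hZ1 N (fun _ => 1) (fun _ => zero_le_one)
  simp only [one_mul, sum_const, card_univ, Fintype.card_sum, nsmul_eq_mul, mul_one] at hω
  push_cast at hω
  have hprod : ∀ e, ∏ j, Z e (ω j) ≤ 2 * (Fintype.card κ : ℝ) := by
    intro e
    have h1 : ∏ j, Z e (ω j) ≤ ∑ e, ∏ j, Z e (ω j) :=
      Finset.single_le_sum (f := fun e => ∏ j, Z e (ω j))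
        (fun e _ => Finset.prod_nonneg fun j _ => hZ0 e _) (mem_univ e)
    linarith
  have hid : ∀ (s : ℝ) (e : κ), ∏ j, (Real.exp (s / L * Y e (ω j)) / Real.exp ((s + s ^ 2) / L))
      = Real.exp (s / L * ∑ j, Y e (ω j) - N * ((s + s ^ 2) / L)) := by
    intro s e
    have e1 : ∀ j, Real.exp (s / L * Y e (ω j)) / Real.exp ((s + s ^ 2) / L)
        = Real.exp (s / L * Y e (ω j) - (s + s ^ 2) / L) := fun j => (Real.exp_sub _ _).symm
    simp_rw [e1]
    rw [← Real.exp_sum]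
    congr 1
    rw [Finset.sum_sub_distrib, ← Finset.mul_sum]
    simp
  refine ⟨ω, fun e => ⟨?_, ?_⟩⟩
  · by_contra hcon
    push Not at hcon
    have h1 := hprod (Sum.inr e)
    simp only [Z, Sum.elim_inr] at h1
    rw [hid] at h1
    have h2 : N * δ ^ 2 / (4 * L) ≤
        -t / L * ∑ j, Y e (ω j) - N * ((-t + (-t) ^ 2) / L) := by
      have h3 : -t / L * ((1 - δ) * N) ≤ -t / L * ∑ j, Y e (ω j) := by
        have h4 : -t / L ≤ 0 := by
          apply div_nonpos_of_nonpos_of_nonneg _ hL.le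
          rw [ht]; linarith
        exact mul_le_mul_of_nonpos_left hcon.le h4
      have h5 : -t / L * ((1 - δ) * N) - N * ((-t + (-t) ^ 2) / L) = N * δ ^ 2 / (4 * L) := by
        rw [ht]; field_simp; ring
      linarith
    have h3 : Real.exp (N * δ ^ 2 / (4 * L)) ≤ 2 * (Fintype.card κ : ℝ) :=
      (Real.exp_le_exp.mpr h2).trans h1
    rw [Real.exp_neg] at hN
    have h4 := Real.exp_pos (N * δ ^ 2 / (4 * L))
    rw [← div_eq_mul_inv, div_lt_one h4] at hN
    linarith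
  · by_contra hcon
    push Not at hcon
    have h1 := hprod (Sum.inl e)
    simp only [Z, Sum.elim_inl] at h1
    rw [hid] at h1
    have h2 : N * δ ^ 2 / (4 * L) ≤
        t / L * ∑ j, Y e (ω j) - N * ((t + t ^ 2) / L) := by
      have h3 : t / L * ((1 + δ) * N) ≤ t / L * ∑ j, Y e (ω j) := by
        have h4 : 0 ≤ t / L := by rw [ht]; positivity
        exact mul_le_mul_of_nonneg_left hcon.le h4
      have h5 : t / L * ((1 + δ) * N) - N * ((t + t ^ 2) / L) = N * δ ^ 2 / (4 * L) := by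
        rw [ht]; field_simp; ring
      linarith
    have h3 : Real.exp (N * δ ^ 2 / (4 * L)) ≤ 2 * (Fintype.card κ : ℝ) :=
      (Real.exp_le_exp.mpr h2).trans h1
    rw [Real.exp_neg] at hN
    have h4 := Real.exp_pos (N * δ ^ 2 / (4 * L))
    rw [← div_eq_mul_inv, div_lt_one h4] at hN
    linarith

end Vale.Agent.P249
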