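import Vale.Agent.P249.Hub
import Vale.Agent.P249.Sample

/-!
Change of density and sampling for finite subsets of `L_p`.
-/

namespace Vale.Agent.P249

open MeasureTheory Finset
open scoped NNReal ENNReal

variable {Ω : Type*} [MeasurableSpace Ω] {ι : Type*} [Fintype ι] [DecidableEq ι]

theorem core (μ : Measure Ω) (g : ι → Ω → ℝ) (hg : ∀ x, Measurable (g x)) {p : ℝ} (hp : 1 ≤ p)
    (d : ι → ι → ℝ) (hself : ∀ x, d x x = 0) (hsymm : ∀ x y, d x y = d y x)
    (htri : ∀ x y z, d x z ≤ d x y + d y z) (hpos : ∀ x y, x ≠ y → 0 < d x y)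
    (hint : ∀ x y, Integrable (fun ω => |g x ω - g y ω| ^ p) μ)
    (hdp : ∀ x y, ∫ ω, |g x ω - g y ω| ^ p ∂μ = d x y ^ p)
    (m : ℕ) (hm : (Fintype.card ι : ℝ) < (4 / 3) ^ m) (hm1 : 1 ≤ m) (h2 : 2 ≤ Fintype.card ι)
    {δ : ℝ} (hδ0 : 0 < δ) (hδ1 : δ ≤ 1) (N : ℕ) (hN0 : 0 < N)
    (hN : 2 * (Fintype.card ι : ℝ) ^ 2 *
      Real.exp (-(N * δ ^ 2 / (4 * ((2 * m) ^ p * (4 * (Fintype.card ι : ℝ) * m))))) < 1) :
    ∃ φ : ι → Fin N → ℝ, ∀ x y, (1 - δ) * d x y ^ p ≤ ∑ j, |φ x j - φ y j| ^ p ∧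
      ∑ j, |φ x j - φ y j| ^ p ≤ (1 + δ) * d x y ^ p := by
  classical
  have hp0 : 0 < p := by linarith
  obtain ⟨E, hEc, hE⟩ := exists_hub d hself hsymm htri m hm
  set E' : Finset (ι × ι) := E.filter fun e => e.1 ≠ e.2 with hE'
  have hE'c : (E'.card : ℝ) ≤ 4 * (Fintype.card ι : ℝ) * m := by
    have : (E'.card : ℝ) ≤ E.card := by exact_mod_cast card_filter_le _ _
    linarith
  -- E' nonempty
  have hE'ne : E'.Nonempty := by
    obtain ⟨a, b, hab⟩ : ∃ a b : ι, a ≠ b := by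
      have : 1 < Fintype.card ι := by omega
      exact Fintype.one_lt_card_iff.mp this
    obtain ⟨z, h1, h2', _, _⟩ := hE a b
    by_cases haz : a = z
    · refine ⟨(b, z), mem_filter.mpr ⟨h2', ?_⟩⟩
      rw [← haz]
      exact hab.symm
    · exact ⟨(a, z), mem_filter.mpr ⟨h1, haz⟩⟩
  obtain ⟨M, hM⟩ : ∃ M : ℝ, M = (E'.card : ℝ) := ⟨_, rfl⟩
  have hM0 : 0 < M := by rw [hM]; exact_mod_cast hE'ne.card_pos
  -- the density
  obtain ⟨H, hH⟩ : ∃ H : Ω → ℝ, ∀ ω, H ω = ∑ e ∈ E', |g e.1 ω - g e.2 ω| ^ p / d e.1 e.2 ^ p :=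
    ⟨_, fun _ => rfl⟩
  have hterm0 : ∀ e ω, 0 ≤ |g (e : ι × ι).1 ω - g e.2 ω| ^ p / d e.1 e.2 ^ p := by
    intro e ω
    have h1 : 0 ≤ d e.1 e.2 := by
      by_cases h : e.1 = e.2
      · rw [h, hself]
      · exact (hpos _ _ h).le
    positivity
  have hH0 : ∀ ω, 0 ≤ H ω := fun ω => by
    rw [hH]; exact Finset.sum_nonneg fun e _ => hterm0 e ω
  have hHi : Integrable H μ := by
    have : H = fun ω => ∑ e ∈ E', |g e.1 ω - g e.2 ω| ^ p / d e.1 e.2 ^ p := funext hH
    rw [this]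
    exact integrable_finsetSum _ fun e _ => (hint _ _).div_const _
  have hHint : ∫ ω, H ω ∂μ = M := by
    have : H = fun ω => ∑ e ∈ E', |g e.1 ω - g e.2 ω| ^ p / d e.1 e.2 ^ p := funext hH
    rw [this, integral_finsetSum _ fun e _ => (hint _ _).div_const _]
    have : ∀ e ∈ E', ∫ ω, |g e.1 ω - g e.2 ω| ^ p / d e.1 e.2 ^ p ∂μ = 1 := by
      intro e he
      rw [integral_div, hdp]
      have := hpos _ _ (mem_filter.mp he).2
      exact div_self (Real.rpow_pos_of_pos this p).ne'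
    rw [Finset.sum_congr rfl this, hM]
    simp
  have hHm : Measurable H := by
    have : H = fun ω => ∑ e ∈ E', |g e.1 ω - g e.2 ω| ^ p / d e.1 e.2 ^ p := funext hH
    rw [this]
    fun_prop
  -- pointwise Lipschitz bound
  have hlip1 : ∀ u z ω, (u, z) ∈ E → |g u ω - g z ω| ≤ d u z * H ω ^ (1 / p) := by
    intro u z ω huz
    by_cases h : u = z
    · subst h
      simp [hself]
    · have hdpos := hpos u z h
      have h1 : |g u ω - g z ω| ^ p / d u z ^ p ≤ H ω := by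
        rw [hH]
        exact Finset.single_le_sum (f := fun e : ι × ι => |g e.1 ω - g e.2 ω| ^ p / d e.1 e.2 ^ p)
          (fun e _ => hterm0 e ω) (mem_filter.mpr ⟨huz, h⟩ : (u, z) ∈ E')
      rw [div_le_iff₀ (Real.rpow_pos_of_pos hdpos p)] at h1
      have h2 : |g u ω - g z ω| = (|g u ω - g z ω| ^ p) ^ (1 / p) := by
        rw [← Real.rpow_mul (abs_nonneg _), mul_one_div_cancel hp0.ne', Real.rpow_one]
      rw [h2]
      calc (|g u ω - g z ω| ^ p) ^ (1 / p) ≤ (H ω * d u z ^ p) ^ (1 / p) :=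
            Real.rpow_le_rpow (by positivity) h1 (by positivity)
        _ = H ω ^ (1 / p) * (d u z ^ p) ^ (1 / p) := Real.mul_rpow (hH0 ω) (by positivity)
        _ = d u z * H ω ^ (1 / p) := by
            rw [← Real.rpow_mul hdpos.le, mul_one_div_cancel hp0.ne', Real.rpow_one, mul_comm]
  have hmR : (1 : ℝ) ≤ m := by exact_mod_cast hm1
  have hlip : ∀ u v ω, |g u ω - g v ω| ^ p ≤ (2 * m) ^ p * d u v ^ p * H ω := by
    intro u v ω
    obtain ⟨z, h1, h2', h3, h4⟩ := hE u v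
    have h5 := hlip1 u z ω h1
    have h6 := hlip1 v z ω h2'
    have hHp : 0 ≤ H ω ^ (1 / p) := Real.rpow_nonneg (hH0 ω) _
    have hd0 : 0 ≤ d u v := by
      by_cases h : u = v
      · rw [h, hself]
      · exact (hpos _ _ h).le
    have h7 : |g u ω - g v ω| ≤ 2 * m * d u v * H ω ^ (1 / p) := by
      calc |g u ω - g v ω| = |(g u ω - g z ω) - (g v ω - g z ω)| := by ring_nf
        _ ≤ |g u ω - g z ω| + |g v ω - g z ω| := abs_sub _ _
        _ ≤ m * d u v * H ω ^ (1 / p) + m * d u v * H ω ^ (1 / p) := by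
            apply add_le_add
            · exact h5.trans (mul_le_mul_of_nonneg_right h3 hHp)
            · exact h6.trans (mul_le_mul_of_nonneg_right h4 hHp)
        _ = 2 * m * d u v * H ω ^ (1 / p) := by ring
    calc |g u ω - g v ω| ^ p ≤ (2 * m * d u v * H ω ^ (1 / p)) ^ p :=
          Real.rpow_le_rpow (abs_nonneg _) h7 hp0.le
      _ = (2 * m) ^ p * d u v ^ p * (H ω ^ (1 / p)) ^ p := by
          rw [Real.mul_rpow (by positivity) hHp, Real.mul_rpow (by positivity) hd0]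
      _ = (2 * m) ^ p * d u v ^ p * H ω := by
          rw [← Real.rpow_mul (hH0 ω), one_div_mul_cancel hp0.ne', Real.rpow_one]
  -- the probability measure
  let h : Ω → ℝ≥0 := fun ω => Real.toNNReal (H ω / M)
  have hhm : Measurable h := (hHm.div_const M).real_toNNReal
  let ν : Measure Ω := μ.withDensity fun ω => (h ω : ℝ≥0∞)
  have hν : IsProbabilityMeasure ν := by
    constructor
    rw [withDensity_apply _ MeasurableSet.univ, Measure.restrict_univ]
    have e1 : ∀ ω, (h ω : ℝ≥0∞) = ENNReal.ofReal (H ω / M) := fun ω => rfl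
    simp_rw [e1]
    rw [← ofReal_integral_eq_lintegral_ofReal (hHi.div_const M)
      (Filter.Eventually.of_forall fun ω => div_nonneg (hH0 ω) hM0.le), integral_div, hHint,
      div_self hM0.ne']
    simp
  let κ := {e : ι × ι // e.1 ≠ e.2}
  let Y : κ → Ω → ℝ := fun e ω => |g e.1.1 ω - g e.1.2 ω| ^ p * M / (d e.1.1 e.1.2 ^ p * H ω)
  have hdk : ∀ e : κ, 0 < d e.1.1 e.1.2 ^ p := fun e => Real.rpow_pos_of_pos (hpos _ _ e.2) p
  have hY0 : ∀ e ω, 0 ≤ Y e ω := by
    intro e ω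
    have h1 := (hdk e).le
    have h2 := hH0 ω
    simp only [Y]
    positivity
  set L : ℝ := (2 * m) ^ p * (4 * (Fintype.card ι : ℝ) * m) with hL
  have hn0 : (0 : ℝ) < Fintype.card ι := by
    have : 0 < Fintype.card ι := by omega
    exact_mod_cast this
  have hL0 : 0 < L := by positivity
  have hYL : ∀ e ω, Y e ω ≤ L := by
    intro e ω
    have h1 := hdk e
    rcases (hH0 ω).lt_or_eq with h2 | h2
    · simp only [Y]
      rw [div_le_iff₀ (by positivity)]
      have h3 := hlip e.1.1 e.1.2 ω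
      calc |g e.1.1 ω - g e.1.2 ω| ^ p * M ≤ (2 * m) ^ p * d e.1.1 e.1.2 ^ p * H ω * M :=
            mul_le_mul_of_nonneg_right h3 hM0.le
        _ ≤ (2 * m) ^ p * d e.1.1 e.1.2 ^ p * H ω * (4 * (Fintype.card ι : ℝ) * m) :=
            mul_le_mul_of_nonneg_left (hM ▸ hE'c) (by positivity)
        _ = L * (d e.1.1 e.1.2 ^ p * H ω) := by rw [hL]; ring
    · simp only [Y]
      rw [← h2]
      simp [hL0.le]
  have hYm : ∀ e, AEStronglyMeasurable (Y e) ν := by
    intro e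
    apply Measurable.aestronglyMeasurable
    simp only [Y]
    fun_prop
  have hY1 : ∀ e, ∫ ω, Y e ω ∂ν = 1 := by
    intro e
    have e1 : ∫ ω, Y e ω ∂ν = ∫ ω, h ω • Y e ω ∂μ :=
      integral_withDensity_eq_integral_smul hhm _
    rw [e1]
    have e2 : ∀ ω, h ω • Y e ω = |g e.1.1 ω - g e.1.2 ω| ^ p / d e.1.1 e.1.2 ^ p := by
      intro ω
      have h1 := (hdk e).ne'
      have e3 : h ω • Y e ω = (H ω / M) * Y e ω := by
        rw [NNReal.smul_def, smul_eq_mul]
        congr 1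
        exact Real.coe_toNNReal _ (div_nonneg (hH0 ω) hM0.le)
      rw [e3]
      rcases (hH0 ω).lt_or_eq with h2 | h2
      · simp only [Y]
        have := h2.ne'
        field_simp
      · have h3 := hlip e.1.1 e.1.2 ω
        rw [← h2, mul_zero] at h3
        have h4 : |g e.1.1 ω - g e.1.2 ω| ^ p = 0 := le_antisymm h3 (by positivity)
        rw [← h2, h4]
        simp
    simp_rw [e2]
    rw [integral_div, hdp, div_self (hdk e).ne']
  have hcard : (Fintype.card κ : ℝ) ≤ (Fintype.card ι : ℝ) ^ 2 := by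
    have h1 : Fintype.card κ ≤ Fintype.card (ι × ι) := Fintype.card_subtype_le _
    rw [Fintype.card_prod] at h1
    have : (Fintype.card κ : ℝ) ≤ ((Fintype.card ι * Fintype.card ι : ℕ) : ℝ) := by
      exact_mod_cast h1
    push_cast at this
    rw [sq]
    exact this
  have hN' : 2 * (Fintype.card κ : ℝ) * Real.exp (-(N * δ ^ 2 / (4 * L))) < 1 := by
    refine lt_of_le_of_lt ?_ hN
    apply mul_le_mul_of_nonneg_right _ (Real.exp_pos _).le
    linarith
  obtain ⟨ω, hω⟩ := exists_sample ν Y hYm hL0 hY0 hYL hY1 hδ0 hδ1 N hN'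
  have hNR : (0 : ℝ) < N := by exact_mod_cast hN0
  refine ⟨fun x j => g x (ω j) * (M / (N * H (ω j))) ^ (1 / p), ?_⟩
  intro x y
  by_cases hxy : x = y
  · subst hxy
    simp [hself, Real.zero_rpow hp0.ne']
  · have key : ∀ j, |g x (ω j) * (M / (N * H (ω j))) ^ (1 / p)
        - g y (ω j) * (M / (N * H (ω j))) ^ (1 / p)| ^ p
        = d x y ^ p * Y ⟨(x, y), hxy⟩ (ω j) / N := by
      intro j
      have h1 : 0 ≤ M / (N * H (ω j)) := by
        have := hH0 (ω j)
        positivity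
      rw [← sub_mul, abs_mul, abs_of_nonneg (Real.rpow_nonneg h1 _),
        Real.mul_rpow (abs_nonneg _) (Real.rpow_nonneg h1 _), ← Real.rpow_mul h1,
        one_div_mul_cancel hp0.ne', Real.rpow_one]
      simp only [Y]
      have h3 : d x y ^ p ≠ 0 := (Real.rpow_pos_of_pos (hpos x y hxy) p).ne'
      by_cases h4 : H (ω j) = 0
      · rw [h4]; simp
      · field_simp
    simp_rw [key]
    rw [← Finset.sum_div, ← Finset.mul_sum]
    obtain ⟨h1, h2⟩ := hω ⟨(x, y), hxy⟩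
    have h3 : 0 < d x y ^ p := Real.rpow_pos_of_pos (hpos x y hxy) p
    constructor
    · rw [le_div_iff₀ hNR]
      calc (1 - δ) * d x y ^ p * N = d x y ^ p * ((1 - δ) * N) := by ring
        _ ≤ _ := mul_le_mul_of_nonneg_left h1 h3.le
    · rw [div_le_iff₀ hNR]
      calc d x y ^ p * ∑ j, Y ⟨(x, y), hxy⟩ (ω j) ≤ d x y ^ p * ((1 + δ) * N) :=
            mul_le_mul_of_nonneg_left h2 h3.le
        _ = _ := by ring

end Vale.Agent.P249
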