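import Mathlib

/-!
Definitions for the dimension reduction problem in `L_p`.
-/

namespace Vale.Agent.P249

open MeasureTheory

universe u

/-- The space `L_p(μ)` of real functions, `p` a positive real number. -/
abbrev LpSpace {Ω : Type u} [MeasurableSpace Ω] (p : ℝ) (μ : Measure Ω) : Type u :=
  Lp ℝ (ENNReal.ofReal p) μ

/-- The distance `‖x - y‖_p` in `L_p(μ)`. -/
noncomputable def lpDist {Ω : Type u} [MeasurableSpace Ω] {p : ℝ} {μ : Measure Ω}
    (x y : LpSpace p μ) : ℝ := ‖x - y‖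

/-- The norm `(∑ |y_k|^p)^{1/p}` of `ℓ_p^d`. -/
noncomputable def ellNorm (p : ℝ) {d : ℕ} (y : Fin d → ℝ) : ℝ := (∑ k, |y k| ^ p) ^ (1 / p)

/-- `EmbedsWith p D d X`: the finite set `X ⊆ L_p(μ)` admits a map into `ℓ_p^d` with distortion
at most `D`. -/
def EmbedsWith {Ω : Type u} [MeasurableSpace Ω] {μ : Measure Ω} (p D : ℝ) (d : ℕ)
    (X : Finset (LpSpace p μ)) : Prop :=
  ∃ f : X → Fin d → ℝ, ∃ s : ℝ, 0 < s ∧ ∀ x y : X,
    s * lpDist x.1 y.1 ≤ ellNorm p (f x - f y) ∧
    ellNorm p (f x - f y) ≤ D * s * lpDist x.1 y.1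

/-- `GoodDim p D n d`: every `n`-point subset of every `L_p` space (over an arbitrary measure
space) admits a map into `ℓ_p^d` with distortion at most `D`. -/
def GoodDim (p D : ℝ) (n d : ℕ) : Prop :=
  ∀ (Ω : Type u) [MeasurableSpace Ω] (μ : Measure Ω) (X : Finset (LpSpace p μ)),
    X.card = n → EmbedsWith p D d X

/-- `d_p(n, D)`: the least `d` such that every `n`-point subset of every `L_p` space admits a map
into `ℓ_p^d` with distortion at most `D`. -/
noncomputable def dimRed (p D : ℝ) (n : ℕ) : ℕ := sInf {d : ℕ | GoodDim.{u} p D n d}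

end Vale.Agent.P249
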