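import Mathlib

/-!
Sparse spanners: the greedy procedure and the edge count (P249).
-/

namespace Vale.Agent.P249

open Finset

universe u

section greedy

variable {E : Type*} [DecidableEq E]

/-- a list (latest element first) all of whose elements are bad with respect to the earlier ones -/
def Gr (Good : E → Finset E → Prop) : List E → Prop
  | [] => True
  | e :: h => ¬ Good e h.toFinset ∧ Gr Good h

lemma gr_exists (Good : E → Finset E → Prop) (hself : ∀ e F, e ∈ F → Good e F)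
    (hmono : ∀ e F F', F ⊆ F' → Good e F → Good e F') (l : List E) :
    ∃ h : List E, Gr Good h ∧ (∀ e ∈ h, e ∈ l) ∧ ∀ e ∈ l, Good e h.toFinset := by
  induction l with
  | nil => exact ⟨[], trivial, by simp, by simp⟩
  | cons a l ih =>
    obtain ⟨h, h1, h2, h3⟩ := ih
    by_cases hg : Good a h.toFinset
    · refine ⟨h, h1, fun e he => List.mem_cons_of_mem _ (h2 e he), fun e he => ?_⟩
      rcases List.mem_cons.1 he with rfl | he
      · exact hg
      · exact h3 e he
    · refine ⟨a :: h, ⟨hg, h1⟩, fun e he => ?_, fun e he => ?_⟩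
      · rcases List.mem_cons.1 he with rfl | he
        · exact List.mem_cons_self
        · exact List.mem_cons_of_mem _ (h2 e he)
      · rcases List.mem_cons.1 he with rfl | he
        · exact hself _ _ (by simp)
        · refine hmono e h.toFinset _ ?_ (h3 e he)
          intro x hx
          simp only [List.toFinset_cons, mem_insert]
          exact Or.inr hx

lemma gr_last (Good : E → Finset E → Prop)
    (hmono : ∀ e F F', F ⊆ F' → Good e F → Good e F') (P : E → Prop) [DecidablePred P]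
    (h : List E) (hG : Gr Good h) (hP : ∃ e ∈ h, P e) :
    ∃ e ∈ h, P e ∧ ¬ Good e ((h.toFinset.filter P).erase e) := by
  induction h with
  | nil => obtain ⟨e, he, _⟩ := hP; simp at he
  | cons a t ih =>
    by_cases ha : P a
    · refine ⟨a, List.mem_cons_self, ha, fun hg => hG.1 (hmono a _ _ ?_ hg)⟩
      intro x hx
      rw [mem_erase, mem_filter, List.toFinset_cons, mem_insert] at hx
      rcases hx.2.1 with h1 | h1
      · exact absurd h1 hx.1
      · exact h1
    · have hP' : ∃ e ∈ t, P e := by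
        obtain ⟨e, he, hPe⟩ := hP
        rcases List.mem_cons.1 he with rfl | he
        · exact absurd hPe ha
        · exact ⟨e, he, hPe⟩
      obtain ⟨e, he, hPe, hne⟩ := ih hG.2 hP'
      refine ⟨e, List.mem_cons_of_mem _ he, hPe, ?_⟩
      rw [List.toFinset_cons, filter_insert, if_neg ha]
      exact hne

lemma greedy_exists (Good : E → Finset E → Prop) (hself : ∀ e F, e ∈ F → Good e F)
    (hmono : ∀ e F F', F ⊆ F' → Good e F → Good e F') (G : Finset E) :
    ∃ H ⊆ G, (∀ e ∈ G, Good e H) ∧ ∀ (P : E → Prop) [DecidablePred P], (∃ e ∈ H, P e) →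
      ∃ e ∈ H, P e ∧ ¬ Good e ((H.filter P).erase e) := by
  obtain ⟨h, h1, h2, h3⟩ := gr_exists Good hself hmono G.toList
  refine ⟨h.toFinset, ?_, ?_, ?_⟩
  · intro e he
    exact Finset.mem_toList.1 (h2 e (List.mem_toFinset.1 he))
  · intro e he
    exact h3 e (Finset.mem_toList.2 he)
  · intro P _ hP
    obtain ⟨e, he, hPe⟩ := hP
    obtain ⟨e', he', hPe', hne⟩ := gr_last Good hmono P h h1 ⟨e, List.mem_toFinset.1 he, hPe⟩
    exact ⟨e', List.mem_toFinset.2 he', hPe', hne⟩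

end greedy

/-- the constant `1 - 2 ^ (-(1/(2p)))` -/
noncomputable def k0 (p : ℝ) : ℝ := 1 - (2 : ℝ) ^ (-(1 / (2 * p)))

lemma k0_pos {p : ℝ} (hp : 1 ≤ p) : 0 < k0 p := by
  unfold k0
  have h : (2 : ℝ) ^ (-(1 / (2 * p))) < 1 :=
    Real.rpow_lt_one_of_one_lt_of_neg (by norm_num) (by
      have : 0 < 1 / (2 * p) := by positivity
      linarith)
  linarith

lemma k0_lt_one {p : ℝ} : k0 p < 1 := by
  unfold k0
  have : 0 < (2 : ℝ) ^ (-(1 / (2 * p))) := by positivity
  linarith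

lemma two_le_kap {p : ℝ} (hp : 1 ≤ p) : 2 ≤ 2 / k0 p := by
  rw [le_div_iff₀ (k0_pos hp)]
  have := k0_lt_one (p := p)
  linarith

/-- the numerical inequality behind the count -/
lemma num_ineq {p : ℝ} (hp : 1 ≤ p) {a q : ℝ} (ha : 0 < a) (haq : 2 * a ≤ q) :
    2 * a ^ (1 - 1 / (2 * p)) ≤ 2 / k0 p *
      (a ^ (1 - 1 / (2 * p)) + (q - a) ^ (1 - 1 / (2 * p)) - q ^ (1 - 1 / (2 * p))) := by
  set θ := 1 - 1 / (2 * p) with hθ
  have h12 : 1 / (2 * p) ≤ 1 / 2 := by
    apply one_div_le_one_div_of_le (by norm_num); linarith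
  have h12' : 0 < 1 / (2 * p) := by positivity
  have hθ0 : 0 < θ := by linarith
  have hθ1 : θ ≤ 1 := by linarith
  have hq : 0 < q := by linarith
  set α := a / q with hα
  have hα0 : 0 < α := by positivity
  have hα1 : α ≤ 1 / 2 := by rw [hα, div_le_iff₀ hq]; linarith
  have ha' : a = q * α := by rw [hα]; field_simp
  have hqa : q - a = q * (1 - α) := by rw [ha']; ring
  rw [hqa, ha', Real.mul_rpow hq.le hα0.le, Real.mul_rpow hq.le (by linarith : (0:ℝ) ≤ 1 - α)]
  have hqθ : 0 < q ^ θ := by positivity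
  have h1 : 1 - α ≤ (1 - α) ^ θ := by
    calc 1 - α = (1 - α) ^ (1 : ℝ) := (Real.rpow_one _).symm
      _ ≤ (1 - α) ^ θ := Real.rpow_le_rpow_of_exponent_ge (by linarith) (by linarith) hθ1
  have h2 : α ≤ (2 : ℝ) ^ (-(1 / (2 * p))) * α ^ θ := by
    have e : α = α ^ (1 / (2 * p)) * α ^ θ := by
      rw [← Real.rpow_add hα0]
      have : 1 / (2 * p) + θ = 1 := by rw [hθ]; ring
      rw [this, Real.rpow_one]
    have e2 : α ^ (1 / (2 * p)) ≤ (2 : ℝ) ^ (-(1 / (2 * p))) := by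
      have : (2 : ℝ) ^ (-(1 / (2 * p))) = (1 / 2 : ℝ) ^ (1 / (2 * p)) := by
        rw [one_div (2 : ℝ), Real.inv_rpow (by norm_num), Real.rpow_neg (by norm_num)]
      rw [this]
      exact Real.rpow_le_rpow hα0.le hα1 h12'.le
    calc α = α ^ (1 / (2 * p)) * α ^ θ := e
      _ ≤ _ := mul_le_mul_of_nonneg_right e2 (by positivity)
  have h3 : k0 p * α ^ θ ≤ α ^ θ + (1 - α) ^ θ - 1 := by
    unfold k0
    linarith
  have hk := k0_pos hp
  have h4 : 2 * α ^ θ ≤ 2 / k0 p * (α ^ θ + (1 - α) ^ θ - 1) := by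
    calc 2 * α ^ θ = 2 / k0 p * (k0 p * α ^ θ) := by field_simp
      _ ≤ _ := mul_le_mul_of_nonneg_left h3 (by positivity)
  calc 2 * (q ^ θ * α ^ θ) = q ^ θ * (2 * α ^ θ) := by ring
    _ ≤ q ^ θ * (2 / k0 p * (α ^ θ + (1 - α) ^ θ - 1)) := mul_le_mul_of_nonneg_left h4 hqθ.le
    _ = _ := by ring

/-- The resistance statement (part G1) with constants `C'`, `K`. -/
def ResistStmt (p C' K : ℝ) : Prop :=
  ∀ (V : Type u) [DecidableEq V] (S : Finset V) (F : Finset (V × V)),
    (∀ e ∈ F, e.1 ∈ S ∧ e.2 ∈ S) →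
    (∀ A ⊆ S, A.Nonempty → 2 * A.card ≤ S.card →
      (A.card : ℝ) ^ (1 - 1 / (2 * p)) ≤
        ((F.filter fun e => (e.1 ∈ A ∧ e.2 ∉ A) ∨ (e.1 ∉ A ∧ e.2 ∈ A)).card : ℝ)) →
    (∀ A ⊂ S, ((F.filter fun e => e.1 ∈ A ∧ e.2 ∈ A).card : ℝ) ≤ C' * A.card) →
    ∀ (g : V → ℝ) (u v : V), u ∈ S → v ∈ S →
      |g u - g v| ^ p ≤ K * ∑ e ∈ F, |g e.1 - g e.2| ^ p

theorem sparse_of {p : ℝ} (hp : 1 ≤ p) {K : ℝ} (hres : ResistStmt.{u} p (2 / k0 p) K) :
    ∃ C : ℝ, 1 ≤ C ∧ ∀ (V : Type u) [DecidableEq V] (S : Finset V) (G : Finset (V × V)),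
      (∀ e ∈ G, e.1 ∈ S ∧ e.2 ∈ S) → ∃ H ⊆ G, (H.card : ℝ) ≤ C * S.card ∧
        ∀ e ∈ G, ∀ g : V → ℝ, |g e.1 - g e.2| ^ p ≤ C * ∑ e' ∈ H, |g e'.1 - g e'.2| ^ p := by
  have hp0 : 0 < p := by linarith
  set κ := 2 / k0 p with hκ
  have hκ2 : 2 ≤ κ := two_le_kap hp
  set C := max κ K with hC
  have hCκ : κ ≤ C := le_max_left _ _
  have hCK : K ≤ C := le_max_right _ _
  have hC1 : 1 ≤ C := by linarith
  refine ⟨C, hC1, fun V _ S G hG => ?_⟩
  set Good : V × V → Finset (V × V) → Prop := fun e F =>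
    ∀ g : V → ℝ, |g e.1 - g e.2| ^ p ≤ C * ∑ e' ∈ F, |g e'.1 - g e'.2| ^ p with hGood
  have hnn : ∀ (g : V → ℝ) (F : Finset (V × V)), 0 ≤ ∑ e' ∈ F, |g e'.1 - g e'.2| ^ p :=
    fun g F => sum_nonneg fun e _ => by positivity
  have hself : ∀ e F, e ∈ F → Good e F := by
    intro e F he g
    have h1 : |g e.1 - g e.2| ^ p ≤ ∑ e' ∈ F, |g e'.1 - g e'.2| ^ p :=
      single_le_sum (f := fun e' : V × V => |g e'.1 - g e'.2| ^ p)
        (fun e _ => by positivity) he
    have h2 := hnn g F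
    nlinarith
  have hmono : ∀ e F F', F ⊆ F' → Good e F → Good e F' := by
    intro e F F' hFF h g
    refine (h g).trans (mul_le_mul_of_nonneg_left ?_ (by linarith))
    exact sum_le_sum_of_subset_of_nonneg hFF fun e _ _ => by positivity
  obtain ⟨H, hHG, hHgood, hHlast⟩ := greedy_exists Good hself hmono G
  refine ⟨H, hHG, ?_, fun e he => hHgood e he⟩
  refine le_trans ?_ (mul_le_mul_of_nonneg_right hCκ (Nat.cast_nonneg _))
  by_contra hcon
  push Not at hcon
  -- no loops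
  have hloop : ∀ e ∈ H, e.1 ≠ e.2 := by
    intro e he heq
    obtain ⟨e', he', hPe', hne⟩ := hHlast (fun x => x = e) ⟨e, he, rfl⟩
    subst hPe'
    apply hne
    intro g
    rw [heq, sub_self, abs_zero, Real.zero_rpow hp0.ne']
    have := hnn g ((H.filter fun x => x = e').erase e')
    positivity
  set θ := 1 - 1 / (2 * p) with hθ
  have h12 : 1 / (2 * p) ≤ 1 / 2 := by
    apply one_div_le_one_div_of_le (by norm_num); linarith
  have h12' : 0 < 1 / (2 * p) := by positivity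
  have hθ0 : 0 < θ := by linarith
  have hθ1 : θ ≤ 1 := by linarith
  set ins : Finset V → Finset (V × V) := fun A => H.filter fun e => e.1 ∈ A ∧ e.2 ∈ A with hins
  -- the minimal dense set
  set Fam := S.powerset.filter fun A => A.Nonempty ∧
    κ * A.card - κ * (A.card : ℝ) ^ θ < ((ins A).card : ℝ) with hFam
  have hSne : S.Nonempty := by
    rw [Finset.nonempty_iff_ne_empty]
    rintro rfl
    have : H = ∅ := by
      rw [Finset.eq_empty_iff_forall_notMem]
      intro e he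
      have := (hG e (hHG he)).1
      simp at this
    rw [this] at hcon
    simp at hcon
  have hinsS : ins S = H := by
    rw [hins]
    apply filter_true_of_mem
    intro e he
    exact hG e (hHG he)
  have hSF : S ∈ Fam := by
    rw [hFam, mem_filter]
    refine ⟨mem_powerset_self S, hSne, ?_⟩
    rw [hinsS]
    have : 0 ≤ κ * (S.card : ℝ) ^ θ := by positivity
    linarith
  obtain ⟨Q, hQF, hQmin⟩ := Finset.exists_min_image Fam (fun A => A.card) ⟨S, hSF⟩
  rw [hFam, mem_filter, mem_powerset] at hQF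
  obtain ⟨hQS, hQne, hQd⟩ := hQF
  have hmin : ∀ A ⊂ Q, A.Nonempty → ((ins A).card : ℝ) ≤ κ * A.card - κ * (A.card : ℝ) ^ θ := by
    intro A hAQ hAne
    by_contra hc
    push Not at hc
    have hA : A ∈ Fam := by
      rw [hFam, mem_filter, mem_powerset]
      exact ⟨hAQ.1.trans hQS, hAne, hc⟩
    have := hQmin A hA
    have := card_lt_card hAQ
    omega
  have hQ1 : 1 ≤ Q.card := hQne.card_pos
  have hQle : (Q.card : ℝ) ^ θ ≤ Q.card := by
    have h1 : (1 : ℝ) ≤ Q.card := by exact_mod_cast hQ1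
    calc (Q.card : ℝ) ^ θ ≤ (Q.card : ℝ) ^ (1 : ℝ) := Real.rpow_le_rpow_of_exponent_le h1 hθ1
      _ = Q.card := Real.rpow_one _
  have hinsQ : (ins Q).Nonempty := by
    rw [← card_pos]
    have : (0 : ℝ) < (ins Q).card := by nlinarith
    exact_mod_cast this
  obtain ⟨e0, he0⟩ := hinsQ
  rw [hins, mem_filter] at he0
  obtain ⟨e, he, hPe, hne⟩ := hHlast (fun x => x.1 ∈ Q ∧ x.2 ∈ Q) ⟨e0, he0.1, he0.2⟩
  have hFdef : (H.filter fun x => x.1 ∈ Q ∧ x.2 ∈ Q) = ins Q := rfl
  rw [hFdef] at hne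
  set F := (ins Q).erase e with hF
  apply hne
  intro g
  have hsub : ∀ A : Finset V, ((F.filter fun e => e.1 ∈ A ∧ e.2 ∈ A).card : ℝ) ≤ (ins A).card := by
    intro A
    have : (F.filter fun e => e.1 ∈ A ∧ e.2 ∈ A) ⊆ ins A := by
      intro x hx
      rw [mem_filter, hF, mem_erase, hins, mem_filter] at hx
      rw [hins, mem_filter]
      exact ⟨hx.1.2.1, hx.2⟩
    exact_mod_cast card_le_card this
  have key := hres V Q F ?_ ?_ ?_ g e.1 e.2 hPe.1 hPe.2
  · exact key.trans (mul_le_mul_of_nonneg_right hCK (hnn g F))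
  · intro x hx
    rw [hF, mem_erase, hins, mem_filter] at hx
    exact hx.2.2
  · intro A hAQ hAne hAc
    have hA1 : 1 ≤ A.card := hAne.card_pos
    have hAp : A ⊂ Q := by
      refine ⟨hAQ, fun h => ?_⟩
      have := card_le_card h
      omega
    have hB : (Q \ A).card = Q.card - A.card := card_sdiff_of_subset hAQ
    have hBne : (Q \ A).Nonempty := by
      rw [← card_pos, hB]; omega
    have hBp : Q \ A ⊂ Q := by
      refine ⟨sdiff_subset, fun h => ?_⟩
      have := card_le_card h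
      omega
    have m1 := hmin A hAp hAne
    have m2 := hmin (Q \ A) hBp hBne
    set bd : V × V → Prop := fun e => (e.1 ∈ A ∧ e.2 ∉ A) ∨ (e.1 ∉ A ∧ e.2 ∈ A) with hbd
    have hcover : ins Q ⊆ (ins A ∪ ins (Q \ A)) ∪ insert e (F.filter fun e => (e.1 ∈ A ∧ e.2 ∉ A) ∨ (e.1 ∉ A ∧ e.2 ∈ A)) := by
      intro x hx
      have hx' := hx
      rw [hins, mem_filter] at hx'
      obtain ⟨hxH, hx1, hx2⟩ := hx'
      rw [mem_union, mem_union, mem_insert]
      by_cases hxe : x = e
      · exact Or.inr (Or.inl hxe)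
      have hxF : x ∈ F := mem_erase.2 ⟨hxe, hx⟩
      by_cases a1 : x.1 ∈ A <;> by_cases a2 : x.2 ∈ A
      · exact Or.inl (Or.inl (mem_filter.2 ⟨hxH, a1, a2⟩))
      · exact Or.inr (Or.inr (mem_filter.2 ⟨hxF, Or.inl ⟨a1, a2⟩⟩))
      · exact Or.inr (Or.inr (mem_filter.2 ⟨hxF, Or.inr ⟨a1, a2⟩⟩))
      · exact Or.inl (Or.inr (mem_filter.2
          ⟨hxH, mem_sdiff.2 ⟨hx1, a1⟩, mem_sdiff.2 ⟨hx2, a2⟩⟩))
    have hcard : (ins Q).card ≤ (ins A).card + (ins (Q \ A)).card +
        ((F.filter fun e => (e.1 ∈ A ∧ e.2 ∉ A) ∨ (e.1 ∉ A ∧ e.2 ∈ A)).card + 1) := by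
      refine (card_le_card hcover).trans ((card_union_le _ _).trans ?_)
      exact Nat.add_le_add (card_union_le _ _) (card_insert_le _ _)
    have hcardR : ((ins Q).card : ℝ) ≤ (ins A).card + (ins (Q \ A)).card +
        (((F.filter fun e => (e.1 ∈ A ∧ e.2 ∉ A) ∨ (e.1 ∉ A ∧ e.2 ∈ A)).card : ℝ) + 1) := by
      exact_mod_cast hcard
    have hBr : ((Q \ A).card : ℝ) = (Q.card : ℝ) - A.card := by
      rw [hB, Nat.cast_sub (card_le_card hAQ)]
    rw [hBr] at m2
    have hAr : (0 : ℝ) < A.card := by exact_mod_cast hA1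
    have hAQr : 2 * (A.card : ℝ) ≤ Q.card := by exact_mod_cast hAc
    have hnum := num_ineq hp hAr hAQr
    have hA1' : (1 : ℝ) ≤ (A.card : ℝ) ^ θ :=
      Real.one_le_rpow (by exact_mod_cast hA1) hθ0.le
    rw [← hκ, ← hθ] at hnum
    nlinarith
  · intro A hAQ
    refine (hsub A).trans ?_
    rcases A.eq_empty_or_nonempty with rfl | hAne
    · have : ins ∅ = ∅ := by
        rw [hins]
        apply filter_false_of_mem
        intro x _ hx
        simp at hx
      rw [this]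
      simp
    · have m1 := hmin A hAQ hAne
      have : 0 ≤ κ * (A.card : ℝ) ^ θ := by positivity
      linarith

end Vale.Agent.P249
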