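import Mathlib

/-!
Sparse two-hop hub sets in finite metric spaces (Thorup–Zwick style).
-/

namespace Vale.Agent.P249

open Finset

variable {ι : Type*} [DecidableEq ι]

/-- the rank weights `2^{-#{a ∈ A : d x a ≤ d x w}}` sum to at most one. -/
theorem sum_rank_le (g : ι → ℝ) (A : Finset ι) :
    ∑ w ∈ A, ((1 : ℝ) / 2) ^ (A.filter fun a => g a ≤ g w).card ≤ 1 - (1 / 2) ^ A.card := by
  induction A using Finset.strongInduction with
  | H A ih =>
    rcases A.eq_empty_or_nonempty with rfl | hne
    · simp
    · obtain ⟨w, hw, hmax⟩ := A.exists_max_image g hne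
      have hss : A.erase w ⊂ A := Finset.erase_ssubset hw
      have h1 := ih _ hss
      have h2 : (A.filter fun a => g a ≤ g w) = A :=
        Finset.filter_true_of_mem fun a ha => hmax a ha
      have hcard : A.card = (A.erase w).card + 1 := (Finset.card_erase_add_one hw).symm
      rw [← Finset.add_sum_erase _ _ hw, h2]
      have h3 : ∑ x ∈ A.erase w, ((1 : ℝ) / 2) ^ (A.filter fun a => g a ≤ g x).card
          ≤ ∑ x ∈ A.erase w, ((1 : ℝ) / 2) ^ ((A.erase w).filter fun a => g a ≤ g x).card := by
        apply Finset.sum_le_sum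
        intro x _
        apply pow_le_pow_of_le_one (by norm_num) (by norm_num)
        apply Finset.card_le_card
        exact Finset.filter_subset_filter _ (Finset.erase_subset _ _)
      have h4 : ((1 : ℝ) / 2) ^ A.card = (1 / 2) ^ (A.erase w).card * (1 / 2) := by
        rw [hcard, pow_succ]
      rw [h4]
      linarith

/-- number of subsets of `A` avoiding a subset `R` of `A`. -/
theorem card_powerset_disjoint (A R : Finset ι) (hR : R ⊆ A) :
    ((A.powerset.filter fun B => Disjoint R B).card : ℝ) = 2 ^ A.card * (1 / 2) ^ R.card := by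
  have e : (A.powerset.filter fun B => Disjoint R B) = (A \ R).powerset := by
    ext B
    simp only [mem_filter, mem_powerset, subset_sdiff]
    constructor
    · rintro ⟨h1, h2⟩; exact ⟨h1, h2.symm⟩
    · rintro ⟨h1, h2⟩; exact ⟨h1, h2.symm⟩
  rw [e, card_powerset, card_sdiff_of_subset hR]
  have h : R.card ≤ A.card := card_le_card hR
  push_cast
  rw [pow_sub₀ _ (by norm_num) h]
  simp

/-- number of pairs (subset, element). -/
theorem sum_card_powerset (A : Finset ι) :
    ∑ B ∈ A.powerset, (B.card : ℝ) = 2 ^ A.card * A.card / 2 := by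
  have h1 : ∑ B ∈ A.powerset, (B.card : ℝ) = ∑ B ∈ A.powerset, ((A \ B).card : ℝ) := by
    apply Finset.sum_bij' (fun B _ => A \ B) (fun B _ => A \ B)
    · intro B _; simp
    · intro B _; simp
    · intro B hB; simpa using Finset.inter_eq_right.mpr (mem_powerset.mp hB)
    · intro B hB; simpa using Finset.inter_eq_right.mpr (mem_powerset.mp hB)
    · intro B hB
      congr 1
      rw [Finset.sdiff_sdiff_eq_self (mem_powerset.mp hB)]
  have h2 : ∑ B ∈ A.powerset, (B.card : ℝ) + ∑ B ∈ A.powerset, ((A \ B).card : ℝ)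
      = 2 ^ A.card * A.card := by
    rw [← Finset.sum_add_distrib]
    have : ∀ B ∈ A.powerset, (B.card : ℝ) + ((A \ B).card : ℝ) = A.card := by
      intro B hB
      have := Finset.card_sdiff_add_card_eq_card (mem_powerset.mp hB)
      rw [← this]; push_cast; ring
    rw [Finset.sum_congr rfl this]
    simp [card_powerset]
  linarith

variable [Fintype ι]

/-- One level of the hierarchy. -/
theorem exists_level (d : ι → ι → ℝ) (A : Finset ι) (hA : A.Nonempty) :
    ∃ B ⊆ A, (B.card : ℝ) ≤ 3 / 4 * A.card ∧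
      (∑ x : ι, ((A.filter fun w => ∀ b ∈ B, d x w < d x b).card : ℝ))
        ≤ 3 * (Fintype.card ι : ℝ) := by
  classical
  have hn : (0 : ℝ) < (Fintype.card ι : ℝ) := by
    have : Nonempty ι := ⟨hA.choose⟩
    exact_mod_cast Fintype.card_pos
  have hAc : (0 : ℝ) < (A.card : ℝ) := by exact_mod_cast hA.card_pos
  obtain ⟨n, hnn⟩ : ∃ n : ℝ, n = (Fintype.card ι : ℝ) := ⟨_, rfl⟩
  rw [← hnn] at hn ⊢
  obtain ⟨G, hG⟩ : ∃ G : Finset ι → ℝ, ∀ B, G B =
    ∑ x : ι, ((A.filter fun w => ∀ b ∈ B, d x w < d x b).card : ℝ) := ⟨_, fun _ => rfl⟩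
  have hG0 : ∀ B, 0 ≤ G B := fun B => by rw [hG]; positivity
  have hx : ∀ x : ι, ∑ B ∈ A.powerset, ((A.filter fun w => ∀ b ∈ B, d x w < d x b).card : ℝ)
      ≤ 2 ^ A.card := by
    intro x
    have e1 : ∀ B ∈ A.powerset, ((A.filter fun w => ∀ b ∈ B, d x w < d x b).card : ℝ)
        = ∑ w ∈ A, if (∀ b ∈ B, d x w < d x b) then (1 : ℝ) else 0 := by
      intro B _
      rw [Finset.card_filter]
      push_cast
      rfl
    rw [Finset.sum_congr rfl e1, Finset.sum_comm]
    have e2 : ∀ w ∈ A, ∑ B ∈ A.powerset, (if (∀ b ∈ B, d x w < d x b) then (1 : ℝ) else 0)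
        ≤ 2 ^ A.card * (1 / 2) ^ (A.filter fun a => d x a ≤ d x w).card := by
      intro w _
      rw [← card_powerset_disjoint A _ (Finset.filter_subset _ _), Finset.card_filter]
      push_cast
      apply Finset.sum_le_sum
      intro B _
      by_cases hB : ∀ b ∈ B, d x w < d x b
      · have : Disjoint (A.filter fun a => d x a ≤ d x w) B := by
          rw [Finset.disjoint_left]
          intro a ha haB
          have h1 := (mem_filter.mp ha).2
          have h2 := hB a haB
          linarith
        rw [if_pos hB, if_pos this]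
      · rw [if_neg hB]
        split_ifs <;> norm_num
    refine (Finset.sum_le_sum e2).trans ?_
    rw [← Finset.mul_sum]
    have h3 := sum_rank_le (fun a => d x a) A
    have h4 : (0 : ℝ) ≤ (1 / 2) ^ A.card := by positivity
    have h5 : (0 : ℝ) < 2 ^ A.card := by positivity
    nlinarith
  have hsum : ∑ B ∈ A.powerset, G B ≤ n * 2 ^ A.card := by
    have e : ∑ B ∈ A.powerset, G B = ∑ x : ι, ∑ B ∈ A.powerset,
        ((A.filter fun w => ∀ b ∈ B, d x w < d x b).card : ℝ) := by
      rw [Finset.sum_comm]
      exact Finset.sum_congr rfl fun B _ => hG B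
    rw [e]
    refine (Finset.sum_le_sum fun x _ => hx x).trans ?_
    rw [hnn]
    simp
  -- average
  have havg : ∑ B ∈ A.powerset, ((B.card : ℝ) / A.card + 1 / (4 * n) * G B)
      ≤ 2 ^ A.card * (3 / 4) := by
    rw [Finset.sum_add_distrib, ← Finset.sum_div, sum_card_powerset, ← Finset.mul_sum]
    have h6 : 1 / (4 * n) * ∑ B ∈ A.powerset, G B ≤ 2 ^ A.card / 4 := by
      calc _ ≤ 1 / (4 * n) * (n * 2 ^ A.card) :=
            mul_le_mul_of_nonneg_left hsum (by positivity)
        _ = 2 ^ A.card / 4 := by field_simp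
    have h7 : 2 ^ A.card * (A.card : ℝ) / 2 / A.card = 2 ^ A.card / 2 := by field_simp
    rw [h7]
    linarith
  obtain ⟨B, hB, hFB⟩ : ∃ B ∈ A.powerset, (B.card : ℝ) / A.card + 1 / (4 * n) * G B ≤ 3 / 4 := by
    by_contra hcon
    push Not at hcon
    have hne : A.powerset.Nonempty := ⟨∅, by simp⟩
    have := Finset.sum_lt_sum_of_nonempty hne hcon
    simp only [sum_const, card_powerset, nsmul_eq_mul] at this
    push_cast at this
    linarith
  refine ⟨B, mem_powerset.mp hB, ?_, ?_⟩
  · have h1 : (B.card : ℝ) / A.card ≤ 3 / 4 := by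
      have : 0 ≤ 1 / (4 * n) * G B := mul_nonneg (by positivity) (hG0 B)
      linarith
    rwa [div_le_iff₀ hAc] at h1
  · rw [← hG B]
    have h1 : 1 / (4 * n) * G B ≤ 3 / 4 := by
      have : 0 ≤ (B.card : ℝ) / A.card := by positivity
      linarith
    have h2 : G B = (4 * n) * (1 / (4 * n) * G B) := by field_simp
    rw [h2]
    calc (4 * n) * (1 / (4 * n) * G B)
        ≤ (4 * n) * (3 / 4) := mul_le_mul_of_nonneg_left h1 (by positivity)
      _ = 3 * n := by ring

/-- The recursive hub statement. -/
theorem exists_hub_aux (d : ι → ι → ℝ) (hsymm : ∀ x y, d x y = d y x)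
    (htri : ∀ x y z, d x z ≤ d x y + d y z) (m : ℕ) :
    ∀ A : Finset ι, (A.card : ℝ) < (4 / 3) ^ m → ∃ E : Finset (ι × ι),
      (E.card : ℝ) ≤ 4 * (Fintype.card ι : ℝ) * m ∧
      ∀ (u v : ι) (r t : ℝ), d u v ≤ r → (∃ a ∈ A, d u a ≤ t * r) →
        ∃ z, (u, z) ∈ E ∧ (v, z) ∈ E ∧ d u z ≤ (t + m) * r ∧ d v z ≤ (t + m) * r := by
  classical
  have hnn : ∀ x y, 0 ≤ d x y := by
    intro x y
    have h1 := htri x y x
    have h2 := htri x x x
    have h3 := hsymm x y
    have h4 := htri x x y
    linarith
  induction m with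
  | zero =>
    intro A hA
    have : A = ∅ := by
      rw [← Finset.card_eq_zero]
      have : (A.card : ℝ) < 1 := by simpa using hA
      have h2 : A.card < 1 := by exact_mod_cast this
      omega
    subst this
    refine ⟨∅, by simp, ?_⟩
    rintro u v r t _ ⟨a, ha, _⟩
    simp at ha
  | succ m ih =>
    intro A hA
    rcases A.eq_empty_or_nonempty with rfl | hne
    · refine ⟨∅, by simp; positivity, ?_⟩
      rintro u v r t _ ⟨a, ha, _⟩
      simp at ha
    · obtain ⟨B, hBA, hBc, hsum⟩ := exists_level d A hne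
      have hBm : (B.card : ℝ) < (4 / 3) ^ m := by
        rw [pow_succ] at hA
        linarith
      obtain ⟨E', hE'c, hE'⟩ := ih B hBm
      have hp : ∀ x : ι, ∃ a ∈ A, ∀ a' ∈ A, d x a ≤ d x a' := fun x =>
        A.exists_min_image (fun a => d x a) hne
      choose pr hprA hprmin using hp
      let E1 : Finset (ι × ι) := univ.image fun x => (x, pr x)
      let E2 : Finset (ι × ι) :=
        univ.biUnion fun x => (A.filter fun w => ∀ b ∈ B, d x w < d x b).image fun w => (x, w)
      refine ⟨E' ∪ (E1 ∪ E2), ?_, ?_⟩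
      · have h1 : (E1.card : ℝ) ≤ Fintype.card ι := by
          exact_mod_cast Finset.card_image_le
        have h2 : (E2.card : ℝ) ≤ 3 * Fintype.card ι := by
          refine le_trans ?_ hsum
          have h3 : E2.card ≤ ∑ x : ι,
              (A.filter fun w => ∀ b ∈ B, d x w < d x b).card := by
            refine Finset.card_biUnion_le.trans ?_
            apply Finset.sum_le_sum
            intro x _
            exact Finset.card_image_le
          exact_mod_cast h3
        have h3 : ((E' ∪ (E1 ∪ E2)).card : ℝ) ≤ E'.card + (E1.card + E2.card) := by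
          have h4 : (E' ∪ (E1 ∪ E2)).card ≤ E'.card + (E1 ∪ E2).card := Finset.card_union_le _ _
          have h5 : (E1 ∪ E2).card ≤ E1.card + E2.card := Finset.card_union_le _ _
          exact_mod_cast h4.trans (by omega)
        push_cast
        linarith
      · rintro u v r t hr ⟨a, haA, ha⟩
        have hpu : d u (pr u) ≤ t * r := (hprmin u a haA).trans ha
        have hr0 : 0 ≤ r := (hnn u v).trans hr
        have hmr : 0 ≤ (m : ℝ) * r := by positivity
        have hvp : d v (pr u) ≤ (t + 1) * r := by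
          have := htri v u (pr u)
          rw [hsymm v u] at this
          linarith
        by_cases hcase : ∀ b ∈ B, d v (pr u) < d v b
        · refine ⟨pr u, ?_, ?_, ?_, ?_⟩
          · apply Finset.mem_union_right
            apply Finset.mem_union_left
            exact Finset.mem_image.mpr ⟨u, mem_univ _, rfl⟩
          · apply Finset.mem_union_right
            apply Finset.mem_union_right
            rw [Finset.mem_biUnion]
            exact ⟨v, mem_univ _, Finset.mem_image.mpr
              ⟨pr u, Finset.mem_filter.mpr ⟨hprA u, hcase⟩, rfl⟩⟩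
          · push_cast
            nlinarith
          · push_cast
            nlinarith
        · push Not at hcase
          obtain ⟨b, hbB, hb⟩ := hcase
          have hvu : d v u ≤ r := by rw [hsymm]; exact hr
          obtain ⟨z, hz1, hz2, hz3, hz4⟩ := hE' v u r (t + 1) hvu ⟨b, hbB, hb.trans hvp⟩
          refine ⟨z, Finset.mem_union_left _ hz2, Finset.mem_union_left _ hz1, ?_, ?_⟩
          · push_cast
            have e : (t + (↑m + 1)) * r = (t + 1 + ↑m) * r := by ring
            rw [e]; exact hz4
          · push_cast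
            have e : (t + (↑m + 1)) * r = (t + 1 + ↑m) * r := by ring
            rw [e]; exact hz3

/-- Sparse hub sets. -/
theorem exists_hub (d : ι → ι → ℝ) (hself : ∀ x, d x x = 0) (hsymm : ∀ x y, d x y = d y x)
    (htri : ∀ x y z, d x z ≤ d x y + d y z) (m : ℕ) (hm : (Fintype.card ι : ℝ) < (4 / 3) ^ m) :
    ∃ E : Finset (ι × ι), (E.card : ℝ) ≤ 4 * (Fintype.card ι : ℝ) * m ∧
      ∀ u v : ι, ∃ z, (u, z) ∈ E ∧ (v, z) ∈ E ∧ d u z ≤ m * d u v ∧ d v z ≤ m * d u v := by
  obtain ⟨E, hE1, hE2⟩ := exists_hub_aux d hsymm htri m univ (by simpa using hm)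
  refine ⟨E, hE1, fun u v => ?_⟩
  obtain ⟨z, h1, h2, h3, h4⟩ := hE2 u v (d u v) 0 le_rfl ⟨u, mem_univ _, by simp [hself]⟩
  exact ⟨z, h1, h2, by simpa using h3, by simpa using h4⟩

end Vale.Agent.P249
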