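import Mathlib

/-!
Derandomised Chernoff bound: finitely many bounded random variables of mean one can be
simultaneously sampled.
-/

namespace Vale.Agent.P249

open MeasureTheory Finset

lemma exp_mul_le_convex {t θ : ℝ} (ht0 : 0 ≤ t) (ht1 : t ≤ 1) :
    Real.exp (t * θ) ≤ 1 + t * (Real.exp θ - 1) := by
  have h := convexOn_exp.2 (Set.mem_univ (0 : ℝ)) (Set.mem_univ θ)
    (sub_nonneg.2 ht1) ht0 (by ring)
  simp only [smul_eq_mul, mul_zero, zero_add, Real.exp_zero, mul_one] at h
  linarith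

variable {Ω : Type*} [MeasurableSpace Ω]

theorem exists_sample (ν : Measure Ω) [IsProbabilityMeasure ν] {ι : Type*} (J : Finset ι)
    (Z : ι → Ω → ℝ) (hmeas : ∀ j ∈ J, AEStronglyMeasurable (Z j) ν) (B θ : ℝ) (hB : 0 < B)
    (hZ0 : ∀ j ∈ J, ∀ ω, 0 ≤ Z j ω) (hZB : ∀ j ∈ J, ∀ ω, Z j ω ≤ B)
    (hmean : ∀ j ∈ J, ∫ ω, Z j ω ∂ν = 1) (S : Set Ω) (hS : ν S = 0) (k : ℕ) :
    ∃ w : ℕ → Ω, (∀ i, w i ∉ S) ∧
      ∑ j ∈ J, (Real.exp (θ / B * ∑ i ∈ Finset.range k, Z j (w i)
          - k * ((Real.exp θ - 1) / B)) +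
        Real.exp (-θ / B * ∑ i ∈ Finset.range k, Z j (w i)
          - k * ((Real.exp (-θ) - 1) / B))) ≤ 2 * J.card := by
  classical
  -- single-variable estimate
  have key : ∀ (φ : ℝ), ∀ j ∈ J,
      Integrable (fun ω => Real.exp (φ / B * Z j ω - (Real.exp φ - 1) / B)) ν ∧
      ∫ ω, Real.exp (φ / B * Z j ω - (Real.exp φ - 1) / B) ∂ν ≤ 1 := by
    intro φ j hj
    have hZint : Integrable (Z j) ν := by
      refine Integrable.mono' (integrable_const B) (hmeas j hj) (ae_of_all _ fun ω => ?_)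
      rw [Real.norm_eq_abs, abs_of_nonneg (hZ0 j hj ω)]
      exact hZB j hj ω
    have hpt : ∀ ω, Real.exp (φ / B * Z j ω - (Real.exp φ - 1) / B) ≤
        (1 + Z j ω / B * (Real.exp φ - 1)) * Real.exp (-((Real.exp φ - 1) / B)) := by
      intro ω
      rw [sub_eq_add_neg, Real.exp_add]
      refine mul_le_mul_of_nonneg_right ?_ (Real.exp_pos _).le
      have h1 : φ / B * Z j ω = (Z j ω / B) * φ := by ring
      rw [h1]
      exact exp_mul_le_convex (div_nonneg (hZ0 j hj ω) hB.le)
        ((div_le_one hB).2 (hZB j hj ω))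
    have hint2 : Integrable (fun ω => (1 + Z j ω / B * (Real.exp φ - 1)) *
        Real.exp (-((Real.exp φ - 1) / B))) ν := by
      refine Integrable.mul_const ?_ _
      refine (integrable_const 1).add ?_
      exact (hZint.div_const B).mul_const _
    have hmeas2 : AEStronglyMeasurable
        (fun ω => Real.exp (φ / B * Z j ω - (Real.exp φ - 1) / B)) ν := by
      refine Real.continuous_exp.comp_aestronglyMeasurable ?_
      exact ((hmeas j hj).const_mul _).sub aestronglyMeasurable_const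
    have hint1 : Integrable (fun ω => Real.exp (φ / B * Z j ω - (Real.exp φ - 1) / B)) ν := by
      refine Integrable.mono' hint2 hmeas2 (ae_of_all _ fun ω => ?_)
      rw [Real.norm_eq_abs, abs_of_pos (Real.exp_pos _)]
      exact hpt ω
    refine ⟨hint1, ?_⟩
    calc ∫ ω, Real.exp (φ / B * Z j ω - (Real.exp φ - 1) / B) ∂ν
        ≤ ∫ ω, (1 + Z j ω / B * (Real.exp φ - 1)) * Real.exp (-((Real.exp φ - 1) / B)) ∂ν :=
          integral_mono hint1 hint2 hpt
      _ = (1 + (Real.exp φ - 1) / B) * Real.exp (-((Real.exp φ - 1) / B)) := by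
          rw [integral_mul_const, integral_add (integrable_const 1)
            ((hZint.div_const B).mul_const _), integral_mul_const, integral_div, hmean j hj]
          simp
          ring
      _ ≤ 1 := by
          have h1 : 1 + (Real.exp φ - 1) / B ≤ Real.exp ((Real.exp φ - 1) / B) := by
            have := Real.add_one_le_exp ((Real.exp φ - 1) / B)
            linarith
          calc (1 + (Real.exp φ - 1) / B) * Real.exp (-((Real.exp φ - 1) / B))
              ≤ Real.exp ((Real.exp φ - 1) / B) * Real.exp (-((Real.exp φ - 1) / B)) :=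
                mul_le_mul_of_nonneg_right h1 (Real.exp_pos _).le
            _ = 1 := by rw [← Real.exp_add]; simp
  induction k with
  | zero =>
    obtain ⟨x, hx, -⟩ := exists_notMem_null_le_integral (μ := ν) (f := fun _ => (0 : ℝ))
      (integrable_const 0) hS
    refine ⟨fun _ => x, fun _ => hx, ?_⟩
    simp
    ring_nf
    exact le_refl _
  | succ k ih =>
    obtain ⟨w, hw, hsum⟩ := ih
    set P : ι → ℝ := fun j => Real.exp (θ / B * ∑ i ∈ Finset.range k, Z j (w i)
          - k * ((Real.exp θ - 1) / B)) with hP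
    set Q : ι → ℝ := fun j => Real.exp (-θ / B * ∑ i ∈ Finset.range k, Z j (w i)
          - k * ((Real.exp (-θ) - 1) / B)) with hQ
    set F : Ω → ℝ := fun ω => ∑ j ∈ J,
      (P j * Real.exp (θ / B * Z j ω - (Real.exp θ - 1) / B) +
        Q j * Real.exp (-θ / B * Z j ω - (Real.exp (-θ) - 1) / B)) with hF
    have hFint : Integrable F ν := by
      refine integrable_finsetSum _ fun j hj => ?_
      exact ((key θ j hj).1.const_mul _).add ((key (-θ) j hj).1.const_mul _)
    have hFle : ∫ ω, F ω ∂ν ≤ 2 * J.card := by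
      rw [hF, integral_finsetSum]
      · refine le_trans ?_ hsum
        refine Finset.sum_le_sum fun j hj => ?_
        rw [integral_add ((key θ j hj).1.const_mul _) ((key (-θ) j hj).1.const_mul _),
          integral_const_mul, integral_const_mul]
        have h1 := mul_le_mul_of_nonneg_left (key θ j hj).2 (Real.exp_pos
          (θ / B * ∑ i ∈ Finset.range k, Z j (w i) - k * ((Real.exp θ - 1) / B))).le
        have h2 := mul_le_mul_of_nonneg_left (key (-θ) j hj).2 (Real.exp_pos
          (-θ / B * ∑ i ∈ Finset.range k, Z j (w i) - k * ((Real.exp (-θ) - 1) / B))).le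
        rw [mul_one] at h1 h2
        exact add_le_add h1 h2
      · intro j hj
        exact ((key θ j hj).1.const_mul _).add ((key (-θ) j hj).1.const_mul _)
    obtain ⟨x, hx, hxF⟩ := exists_notMem_null_le_integral hFint hS
    refine ⟨Function.update w k x, ?_, ?_⟩
    · intro i
      by_cases hi : i = k
      · subst hi; simpa using hx
      · rw [Function.update_of_ne hi]; exact hw i
    · refine le_trans (le_of_eq ?_) (hxF.trans hFle)
      rw [hF]
      refine Finset.sum_congr rfl fun j _ => ?_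
      have hs : ∑ i ∈ Finset.range (k + 1), Z j (Function.update w k x i) =
          ∑ i ∈ Finset.range k, Z j (w i) + Z j x := by
        rw [Finset.sum_range_succ, Function.update_self]
        congr 1
        refine Finset.sum_congr rfl fun i hi => ?_
        rw [Function.update_of_ne (Finset.mem_range.1 hi).ne]
      rw [hs, hP, hQ]
      simp only
      rw [← Real.exp_add, ← Real.exp_add]
      push_cast
      congr 2 <;> ring

/-- Simultaneous sampling with relative error `ε`. -/
theorem exists_sample_eps (ν : Measure Ω) [IsProbabilityMeasure ν] {ι : Type*} (J : Finset ι)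
    (Z : ι → Ω → ℝ) (hmeas : ∀ j ∈ J, AEStronglyMeasurable (Z j) ν) (B θ ε : ℝ) (hB : 0 < B)
    (hθ : 0 < θ) (h1 : Real.exp θ - 1 ≤ θ * (1 + ε / 2)) (h2 : θ * (1 - ε / 2) ≤ 1 - Real.exp (-θ))
    (hZ0 : ∀ j ∈ J, ∀ ω, 0 ≤ Z j ω) (hZB : ∀ j ∈ J, ∀ ω, Z j ω ≤ B)
    (hmean : ∀ j ∈ J, ∫ ω, Z j ω ∂ν = 1) (S : Set Ω) (hS : ν S = 0) (k : ℕ)
    (hk : 2 * B / (ε * θ) * Real.log (2 * J.card) ≤ k) (hε : 0 < ε) :
    ∃ w : ℕ → Ω, (∀ i, w i ∉ S) ∧ ∀ j ∈ J,
      (1 - ε) * k ≤ ∑ i ∈ Finset.range k, Z j (w i) ∧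
        ∑ i ∈ Finset.range k, Z j (w i) ≤ (1 + ε) * k := by
  obtain ⟨w, hw, hsum⟩ := exists_sample ν J Z hmeas B θ hB hZ0 hZB hmean S hS k
  refine ⟨w, hw, fun j hj => ?_⟩
  have hJ : (0 : ℝ) < 2 * J.card := by
    have : 0 < J.card := Finset.card_pos.2 ⟨j, hj⟩
    positivity
  set s := ∑ i ∈ Finset.range k, Z j (w i) with hs
  have hterm := (Finset.single_le_sum (f := fun j =>
    (Real.exp (θ / B * ∑ i ∈ Finset.range k, Z j (w i) - k * ((Real.exp θ - 1) / B)) +
        Real.exp (-θ / B * ∑ i ∈ Finset.range k, Z j (w i)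
          - k * ((Real.exp (-θ) - 1) / B)))) (fun j _ => by positivity) hj).trans hsum
  simp only [← hs] at hterm
  have hk2 : Real.log (2 * J.card) ≤ k * (ε * θ) / (2 * B) := by
    have h3 : 0 < 2 * B / (ε * θ) := by positivity
    rw [le_div_iff₀ (by positivity)]
    have h4 := mul_le_mul_of_nonneg_right hk (show 0 ≤ ε * θ by positivity)
    have h5 : 2 * B / (ε * θ) * Real.log (2 * J.card) * (ε * θ) =
        Real.log (2 * J.card) * (2 * B) := by
      field_simp
    linarith
  have hup : θ / B * s - k * ((Real.exp θ - 1) / B) ≤ Real.log (2 * J.card) := by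
    rw [Real.le_log_iff_exp_le hJ]
    exact le_trans (le_add_of_nonneg_right (Real.exp_pos _).le) hterm
  have hlo : -θ / B * s - k * ((Real.exp (-θ) - 1) / B) ≤ Real.log (2 * J.card) := by
    rw [Real.le_log_iff_exp_le hJ]
    exact le_trans (le_add_of_nonneg_left (Real.exp_pos _).le) hterm
  have hk0 : (0 : ℝ) ≤ k := Nat.cast_nonneg k
  constructor
  · have h6 := hlo.trans hk2
    have h7 : B * (-θ / B * s - k * ((Real.exp (-θ) - 1) / B)) ≤ B * (k * (ε * θ) / (2 * B)) :=
      mul_le_mul_of_nonneg_left h6 hB.le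
    have h8 : B * (-θ / B * s - k * ((Real.exp (-θ) - 1) / B)) =
        -θ * s - k * (Real.exp (-θ) - 1) := by field_simp
    have h9 : B * (k * (ε * θ) / (2 * B)) = k * (ε * θ) / 2 := by field_simp
    rw [h8, h9] at h7
    have h10 : θ * ((1 - ε) * k) ≤ θ * s := by nlinarith
    exact le_of_mul_le_mul_left h10 hθ
  · have h6 := hup.trans hk2
    have h7 : B * (θ / B * s - k * ((Real.exp θ - 1) / B)) ≤ B * (k * (ε * θ) / (2 * B)) :=
      mul_le_mul_of_nonneg_left h6 hB.le
    have h8 : B * (θ / B * s - k * ((Real.exp θ - 1) / B)) =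
        θ * s - k * (Real.exp θ - 1) := by field_simp
    have h9 : B * (k * (ε * θ) / (2 * B)) = k * (ε * θ) / 2 := by field_simp
    rw [h8, h9] at h7
    have h10 : θ * s ≤ θ * ((1 + ε) * k) := by nlinarith
    exact le_of_mul_le_mul_left h10 hθ

/-- Existence of a suitable `θ`. -/
lemma exists_theta (ε : ℝ) (hε : 0 < ε) :
    ∃ θ : ℝ, 0 < θ ∧ Real.exp θ - 1 ≤ θ * (1 + ε / 2) ∧ θ * (1 - ε / 2) ≤ 1 - Real.exp (-θ) := by
  set θ := min 1 (ε / 2) with hθ
  have h0 : 0 < θ := lt_min one_pos (by positivity)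
  have h1 : θ ≤ 1 := min_le_left _ _
  have h2 : θ ≤ ε / 2 := min_le_right _ _
  refine ⟨θ, h0, ?_, ?_⟩
  · have h3 := Real.abs_exp_sub_one_sub_id_le (x := θ) (by rw [abs_of_pos h0]; exact h1)
    have h4 := (abs_le.1 h3).2
    nlinarith
  · have h3 := Real.abs_exp_sub_one_sub_id_le (x := -θ) (by rw [abs_neg, abs_of_pos h0]; exact h1)
    have h4 := (abs_le.1 h3).2
    nlinarith

end Vale.Agent.P249
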