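import Mathlib

/-!
A scale-free two-hop spanner for finite metric spaces, with `n (log n)^2` edges and
stretch `O(log n)`.
-/

namespace Vale.Agent.P249

open Finset

variable {X : Type*} [Fintype X] [DecidableEq X]

omit [Fintype X] in
/-- For a finset `A` and a function `r`, the `s` elements of `A` with the smallest `r`-values. -/
lemma exists_nearest (r : X → ℝ) (A : Finset X) (s : ℕ) (hs : s ≤ A.card) :
    ∃ N ⊆ A, N.card = s ∧ ∀ y ∈ N, ∀ z ∈ A, z ∉ N → r y ≤ r z := by
  induction s with
  | zero => exact ⟨∅, by simp, by simp, by simp⟩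
  | succ s ih =>
    obtain ⟨N, hNA, hNc, hN⟩ := ih (by omega)
    have hne : (A \ N).Nonempty := by
      rw [← Finset.card_pos, Finset.card_sdiff_of_subset hNA]; omega
    obtain ⟨y, hy, hmin⟩ := Finset.exists_min_image (A \ N) r hne
    rw [Finset.mem_sdiff] at hy
    refine ⟨insert y N, ?_, ?_, ?_⟩
    · intro a ha
      rcases Finset.mem_insert.1 ha with rfl | ha
      · exact hy.1
      · exact hNA ha
    · rw [Finset.card_insert_of_notMem hy.2, hNc]
    · intro a ha z hz hzN
      rw [Finset.mem_insert, not_or] at hzN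
      rcases Finset.mem_insert.1 ha with rfl | ha
      · exact hmin z (Finset.mem_sdiff.2 ⟨hz, hzN.2⟩)
      · exact hN a ha z hz hzN.2

/-- Property B: a small set hitting all the sets `N x`. -/
lemma exists_half (A : Finset X) (s : ℕ) (N : X → Finset X) (hN : ∀ x, N x ⊆ A)
    (hc : ∀ x, (N x).card = s) (hcard : 2 * Fintype.card X < 2 ^ s) :
    ∃ H ⊆ A, 2 * H.card ≤ A.card ∧ ∀ x, (N x ∩ H).Nonempty := by
  classical
  set bad1 : X → Finset (Finset X) := fun x => (A \ N x).powerset with hbad1
  set bad2 : X → Finset (Finset X) := fun x => (A \ N x).powerset.image (fun S => S ∪ N x)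
    with hbad2
  set bad : Finset (Finset X) := (Finset.univ : Finset X).biUnion (fun x => bad1 x ∪ bad2 x)
    with hbad
  have hs : ∀ x, (A \ N x).card = A.card - s := by
    intro x
    rw [Finset.card_sdiff_of_subset (hN x), hc]
  have hb : bad.card ≤ Fintype.card X * (2 * 2 ^ (A.card - s)) := by
    have h1 : bad.card ≤ ∑ x : X, (bad1 x ∪ bad2 x).card := Finset.card_biUnion_le
    refine h1.trans ?_
    have h2 : ∀ x : X, (bad1 x ∪ bad2 x).card ≤ 2 * 2 ^ (A.card - s) := by
      intro x
      refine (Finset.card_union_le _ _).trans ?_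
      have h3 : (bad1 x).card = 2 ^ (A.card - s) := by
        rw [hbad1, Finset.card_powerset, hs]
      have h4 : (bad2 x).card ≤ 2 ^ (A.card - s) := by
        refine Finset.card_image_le.trans ?_
        rw [Finset.card_powerset, hs]
      omega
    refine (Finset.sum_le_sum (fun x _ => h2 x)).trans ?_
    simp
  by_cases hX : Nonempty X
  swap
  · refine ⟨∅, by simp, by simp, fun x => (hX ⟨x⟩).elim⟩
  obtain ⟨x0⟩ := hX
  have hsA : s ≤ A.card := by rw [← hc x0]; exact Finset.card_le_card (hN x0)
  have hlt : bad.card < A.powerset.card := by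
    rw [Finset.card_powerset]
    refine hb.trans_lt ?_
    have : 2 ^ A.card = 2 ^ s * 2 ^ (A.card - s) := by
      rw [← pow_add]; congr 1; omega
    rw [this]
    have h5 : 0 < 2 ^ (A.card - s) := by positivity
    nlinarith
  obtain ⟨H, hHA, hHb⟩ : ∃ H ∈ A.powerset, H ∉ bad := by
    by_contra hcon
    push Not at hcon
    exact absurd (Finset.card_le_card (fun a ha => hcon a ha)) (not_le.2 hlt)
  rw [Finset.mem_powerset] at hHA
  have hgood1 : ∀ x, (N x ∩ H).Nonempty := by
    intro x
    by_contra hcon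
    rw [Finset.not_nonempty_iff_eq_empty] at hcon
    apply hHb
    rw [hbad, Finset.mem_biUnion]
    refine ⟨x, Finset.mem_univ _, Finset.mem_union_left _ ?_⟩
    rw [hbad1, Finset.mem_powerset]
    intro a ha
    rw [Finset.mem_sdiff]
    refine ⟨hHA ha, fun haN => ?_⟩
    have : a ∈ N x ∩ H := Finset.mem_inter.2 ⟨haN, ha⟩
    rw [hcon] at this
    exact absurd this (Finset.notMem_empty _)
  have hgood2 : ∀ x, (N x ∩ (A \ H)).Nonempty := by
    intro x
    by_contra hcon
    rw [Finset.not_nonempty_iff_eq_empty] at hcon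
    apply hHb
    rw [hbad, Finset.mem_biUnion]
    refine ⟨x, Finset.mem_univ _, Finset.mem_union_right _ ?_⟩
    rw [hbad2, Finset.mem_image]
    have hNH : N x ⊆ H := by
      intro a ha
      by_contra haH
      have : a ∈ N x ∩ (A \ H) := Finset.mem_inter.2 ⟨ha, Finset.mem_sdiff.2 ⟨hN x ha, haH⟩⟩
      rw [hcon] at this
      exact absurd this (Finset.notMem_empty _)
    refine ⟨H \ N x, ?_, ?_⟩
    · rw [Finset.mem_powerset]
      exact Finset.sdiff_subset_sdiff hHA (Finset.Subset.refl _)
    · exact Finset.sdiff_union_of_subset hNH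
  by_cases hle : 2 * H.card ≤ A.card
  · exact ⟨H, hHA, hle, hgood1⟩
  · refine ⟨A \ H, Finset.sdiff_subset, ?_, hgood2⟩
    rw [Finset.card_sdiff_of_subset hHA]
    omega

/-- The inductive construction of the spanner. -/
lemma spanner_aux (d : X → X → ℝ) (hsymm : ∀ x y, d x y = d y x)
    (htri : ∀ x y z, d x z ≤ d x y + d y z) (hnn : ∀ x y, 0 ≤ d x y)
    (s : ℕ) (hs1 : 1 ≤ s) (hcard : 2 * Fintype.card X < 2 ^ s) (j : ℕ) :
    ∀ A : Finset X, A.card ≤ 2 ^ j →
      ∃ E : Finset (X × X), E.card ≤ Fintype.card X * s * (j + 1) ∧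
        ∀ u v w : X, w ∈ A → ∃ w' : X, (w' = w ∨ (u, w') ∈ E) ∧ (v, w') ∈ E ∧
          d u w' + d w' v ≤ 2 * d u w + (2 * (j : ℝ) + 1) * d u v := by
  have hterm : ∀ (j : ℕ) (A : Finset X), A.card ≤ s →
      ∃ E : Finset (X × X), E.card ≤ Fintype.card X * s * (j + 1) ∧
        ∀ u v w : X, w ∈ A → ∃ w' : X, (w' = w ∨ (u, w') ∈ E) ∧ (v, w') ∈ E ∧
          d u w' + d w' v ≤ 2 * d u w + (2 * (j : ℝ) + 1) * d u v := by
    intro j A hA
    refine ⟨(Finset.univ : Finset X) ×ˢ A, ?_, ?_⟩
    · rw [Finset.card_product, Finset.card_univ]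
      calc Fintype.card X * A.card ≤ Fintype.card X * s := Nat.mul_le_mul_left _ hA
        _ ≤ Fintype.card X * s * (j + 1) := Nat.le_mul_of_pos_right _ (Nat.succ_pos _)
    · intro u v w hw
      refine ⟨w, Or.inl rfl, ?_, ?_⟩
      · simp [hw]
      · have h1 := htri w u v
        rw [hsymm w u] at h1
        have h2 : 0 ≤ (j : ℝ) * d u v := mul_nonneg (Nat.cast_nonneg _) (hnn _ _)
        nlinarith
  induction j with
  | zero =>
    intro A hA
    exact hterm 0 A (by simpa using hA.trans (by simpa using hs1))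
  | succ j ih =>
    intro A hA
    by_cases hAs : A.card ≤ s
    · exact hterm (j + 1) A hAs
    push Not at hAs
    choose N hNA hNc hN using fun x : X => exists_nearest (fun z => d x z) A s hAs.le
    obtain ⟨H, hHA, hH2, hHN⟩ := exists_half A s N hNA hNc hcard
    obtain ⟨E, hE, hprop⟩ := ih H (by
      rw [pow_succ] at hA
      omega)
    refine ⟨E ∪ (Finset.univ : Finset X).biUnion (fun x => (N x).image (fun y => (x, y))), ?_, ?_⟩
    · have h1 : ((Finset.univ : Finset X).biUnion
          (fun x => (N x).image (fun y => (x, y)))).card ≤ Fintype.card X * s := by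
        refine Finset.card_biUnion_le.trans ?_
        refine (Finset.sum_le_sum (fun x _ => Finset.card_image_le)).trans ?_
        simp [hNc]
      refine (Finset.card_union_le _ _).trans ?_
      calc E.card + _ ≤ Fintype.card X * s * (j + 1) + Fintype.card X * s :=
            Nat.add_le_add hE h1
        _ = Fintype.card X * s * (j + 1 + 1) := by ring
    · intro u v w hw
      have hmemN : ∀ x y : X, y ∈ N x → (x, y) ∈ E ∪ (Finset.univ : Finset X).biUnion
          (fun x => (N x).image (fun y => (x, y))) := by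
        intro x y hy
        refine Finset.mem_union_right _ ?_
        rw [Finset.mem_biUnion]
        exact ⟨x, Finset.mem_univ _, Finset.mem_image.2 ⟨y, hy, rfl⟩⟩
      have huv : 0 ≤ d u v := hnn u v
      by_cases hwv : w ∈ N v
      · refine ⟨w, Or.inl rfl, hmemN v w hwv, ?_⟩
        have h1 := htri w u v
        rw [hsymm w u] at h1
        have h2 : 0 ≤ ((j + 1 : ℕ) : ℝ) * d u v := mul_nonneg (Nat.cast_nonneg _) huv
        nlinarith
      · obtain ⟨p, hp⟩ := hHN v
        rw [Finset.mem_inter] at hp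
        have hdp : d v p ≤ d v w := hN v p hp.1 w hw hwv
        obtain ⟨w', hw1, hw2, hw3⟩ := hprop v u p hp.2
        refine ⟨w', Or.inr (Finset.mem_union_left _ hw2), ?_, ?_⟩
        · rcases hw1 with rfl | hw1
          · exact hmemN v _ hp.1
          · exact Finset.mem_union_left _ hw1
        · have h1 := htri v u w
          rw [hsymm v u] at h1
          rw [hsymm v w', hsymm w' u, hsymm v u] at hw3
          push_cast
          nlinarith

/-- A two-hop spanner: few pairs `E`, such that any two points have a common `E`-neighbour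
(or equal point) through which the detour costs only a logarithmic factor. -/
theorem spanner (d : X → X → ℝ) (hsymm : ∀ x y, d x y = d y x)
    (htri : ∀ x y z, d x z ≤ d x y + d y z) (hself : ∀ x, d x x = 0) :
    ∃ E : Finset (X × X), E.card ≤ Fintype.card X * (Nat.log 2 (Fintype.card X) + 2) ^ 2 ∧
      ∀ u v : X, ∃ w : X, (w = u ∨ (u, w) ∈ E) ∧ (v, w) ∈ E ∧
        d u w + d w v ≤ (2 * (Nat.log 2 (Fintype.card X) : ℝ) + 3) * d u v := by
  have hnn : ∀ x y, 0 ≤ d x y := by
    intro x y
    have h := htri x y x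
    rw [hself, hsymm y x] at h
    linarith
  set L := Nat.log 2 (Fintype.card X) with hL
  have hlt : Fintype.card X < 2 ^ (L + 1) := Nat.lt_pow_succ_log_self (by norm_num) _
  obtain ⟨E, hE, hprop⟩ := spanner_aux d hsymm htri hnn (L + 2) (by omega)
    (by rw [pow_succ]; omega) (L + 1) Finset.univ (by rw [Finset.card_univ]; exact hlt.le)
  refine ⟨E, ?_, ?_⟩
  · calc E.card ≤ _ := hE
      _ = Fintype.card X * (L + 2) ^ 2 := by ring
  · intro u v
    obtain ⟨w, h1, h2, h3⟩ := hprop u v u (Finset.mem_univ _)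
    refine ⟨w, h1, h2, ?_⟩
    rw [hself] at h3
    push_cast at h3
    linarith

end Vale.Agent.P249
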