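import Vale.Agent.P249.Defs
import Vale.Agent.P249.Spanner
import Vale.Agent.P249.Sampling

namespace Vale.Agent.P249

open MeasureTheory Finset

universe u

variable {Ω : Type u} [MeasurableSpace Ω] {μ : Measure Ω}

/-- The `p`-th power of the distance as an integral of fixed representatives. -/
lemma norm_sub_rpow {p : ℝ} (hp : 1 ≤ p) (x y : Lp ℝ (ENNReal.ofReal p) μ) :
    Integrable (fun ω => |x ω - y ω| ^ p) μ ∧
      ∫ ω, |x ω - y ω| ^ p ∂μ = ‖x - y‖ ^ p := by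
  have hp0 : 0 < p := lt_of_lt_of_le one_pos hp
  have hq0 : ENNReal.ofReal p ≠ 0 := by
    rw [Ne, ENNReal.ofReal_eq_zero, not_le]; exact hp0
  have hqt : ENNReal.ofReal p ≠ ⊤ := ENNReal.ofReal_ne_top
  have hqr : (ENNReal.ofReal p).toReal = p := ENNReal.toReal_ofReal hp0.le
  have hmem : MemLp (x - y : Lp ℝ (ENNReal.ofReal p) μ) (ENNReal.ofReal p) μ := Lp.memLp _
  have hae : (fun ω => ‖(x - y : Lp ℝ (ENNReal.ofReal p) μ) ω‖ ^ p) =ᵐ[μ]
      (fun ω => |x ω - y ω| ^ p) := by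
    filter_upwards [Lp.coeFn_sub x y] with ω hω
    rw [hω, Pi.sub_apply, Real.norm_eq_abs]
  have hint := hmem.integrable_norm_rpow hq0 hqt
  rw [hqr] at hint
  refine ⟨hint.congr hae, ?_⟩
  rw [← integral_congr_ae hae, Lp.norm_def, hmem.eLpNorm_eq_integral_rpow_norm hq0 hqt, hqr,
    ENNReal.toReal_ofReal (by positivity), ← Real.rpow_mul (by positivity),
    inv_mul_cancel₀ hp0.ne', Real.rpow_one]

/-- Change of density: a single density dominating all normalised differences. -/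
lemma exists_density {p : ℝ} (hp : 1 ≤ p)
    (X : Finset (Lp ℝ (ENNReal.ofReal p) μ)) (hX : 2 ≤ X.card) :
    ∃ (h : Ω → ℝ) (m : ℝ), (∀ ω, 0 ≤ h ω) ∧ Integrable h μ ∧ ∫ ω, h ω ∂μ = m ∧ 1 ≤ m ∧
      m ≤ X.card * ((Nat.log 2 X.card : ℝ) + 2) ^ 2 ∧
      ∀ u v : X, ∀ ω, |(u : Lp ℝ (ENNReal.ofReal p) μ) ω - (v : Lp ℝ (ENNReal.ofReal p) μ) ω| ^ p ≤
        (2 * (Nat.log 2 X.card : ℝ) + 3) ^ p * ‖(u : Lp ℝ (ENNReal.ofReal p) μ) - v‖ ^ p * h ω := by
  classical
  have hp0 : 0 < p := lt_of_lt_of_le one_pos hp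
  have hfact : Fact (1 ≤ ENNReal.ofReal p) := ⟨by
    rw [← ENNReal.ofReal_one]; exact ENNReal.ofReal_le_ofReal hp⟩
  set n := X.card with hn
  set L := Nat.log 2 n with hL
  have hcardX : Fintype.card X = n := Fintype.card_coe X
  -- distance
  set δ : X → X → ℝ := fun x y => ‖(x : Lp ℝ (ENNReal.ofReal p) μ) - y‖ with hδ
  have hsymm : ∀ x y, δ x y = δ y x := fun x y => norm_sub_rev _ _
  have htri : ∀ x y z, δ x z ≤ δ x y + δ y z := fun x y z => norm_sub_le_norm_sub_add_norm_sub _ _ _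
  have hself : ∀ x, δ x x = 0 := fun x => by simp [hδ]
  have hpos : ∀ x y, x ≠ y → 0 < δ x y := by
    intro x y hxy
    rw [hδ]
    simp only
    rw [norm_pos_iff, sub_ne_zero]
    exact fun h => hxy (Subtype.ext h)
  obtain ⟨E, hE, hprop⟩ := spanner δ hsymm htri hself
  rw [hcardX] at hE hprop
  set g : X → Ω → ℝ := fun x ω => (x : Lp ℝ (ENNReal.ofReal p) μ) ω with hg
  have hgi : ∀ x y : X, Integrable (fun ω => |g x ω - g y ω| ^ p) μ := fun x y =>
    (norm_sub_rpow hp _ _).1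
  have hgn : ∀ x y : X, ∫ ω, |g x ω - g y ω| ^ p ∂μ = δ x y ^ p := fun x y =>
    (norm_sub_rpow hp _ _).2
  set E' := E.filter (fun e => e.1 ≠ e.2) with hE'
  set h : Ω → ℝ := fun ω => ∑ e ∈ E', |g e.1 ω - g e.2 ω| ^ p / δ e.1 e.2 ^ p with hh
  have hh0 : ∀ ω, 0 ≤ h ω := fun ω => Finset.sum_nonneg fun e _ => by positivity
  have hhint : Integrable h μ := integrable_finsetSum _ fun e _ => (hgi _ _).div_const _
  set m : ℝ := (E'.card : ℝ) with hm
  have hhm : ∫ ω, h ω ∂μ = m := by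
    rw [hh, integral_finsetSum _ fun e _ => (hgi _ _).div_const _]
    rw [Finset.sum_congr rfl (g := fun _ => (1 : ℝ))]
    · simp [hm]
    · intro e he
      rw [integral_div, hgn, div_self]
      exact (Real.rpow_pos_of_pos (hpos _ _ (Finset.mem_filter.1 he).2) _).ne'
  -- `E'` is nonempty
  have hE'ne : E'.Nonempty := by
    obtain ⟨a, ha, b, hb, hab⟩ := Finset.one_lt_card.1 (show 1 < X.card by omega)
    obtain ⟨w, hw1, hw2, -⟩ := hprop ⟨a, ha⟩ ⟨b, hb⟩
    by_cases hwb : w = ⟨b, hb⟩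
    · rcases hw1 with h | h
      · exfalso
        apply hab
        rw [hwb] at h
        exact (congrArg Subtype.val h).symm
      · refine ⟨_, Finset.mem_filter.2 ⟨h, ?_⟩⟩
        rw [hwb]
        exact fun h' => hab (congrArg Subtype.val h')
    · exact ⟨_, Finset.mem_filter.2 ⟨hw2, fun h' => hwb h'.symm⟩⟩
  have hm1 : 1 ≤ m := by
    rw [hm]; exact_mod_cast Finset.card_pos.2 hE'ne
  have hmle : m ≤ n * ((L : ℝ) + 2) ^ 2 := by
    have : E'.card ≤ n * (L + 2) ^ 2 := (Finset.card_filter_le _ _).trans hE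
    rw [hm]
    exact_mod_cast this
  set t : ℝ := 2 * (L : ℝ) + 3 with ht
  have ht0 : 0 < t := by positivity
  -- pointwise bound along edges
  have hedge : ∀ u w : X, (w = u ∨ (u, w) ∈ E) → ∀ ω, |g u ω - g w ω| ≤ δ u w * h ω ^ (1 / p) := by
    intro u w huw ω
    by_cases hne : u = w
    · subst hne
      simp [hself]
    · have hmem : (u, w) ∈ E' := by
        rcases huw with h' | h'
        · exact absurd h'.symm hne
        · exact Finset.mem_filter.2 ⟨h', hne⟩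
      have h3 : |g u ω - g w ω| ^ p / δ u w ^ p ≤ h ω :=
        Finset.single_le_sum (f := fun e : X × X => |g e.1 ω - g e.2 ω| ^ p / δ e.1 e.2 ^ p)
          (fun e _ => by positivity) hmem
      have hδ0 := hpos u w hne
      rw [div_le_iff₀ (Real.rpow_pos_of_pos hδ0 _)] at h3
      have h4 : (|g u ω - g w ω| ^ p) ^ (1 / p) ≤ (h ω * δ u w ^ p) ^ (1 / p) :=
        Real.rpow_le_rpow (by positivity) h3 (by positivity)
      rw [← Real.rpow_mul (abs_nonneg _), mul_one_div_cancel hp0.ne', Real.rpow_one,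
        Real.mul_rpow (hh0 ω) (by positivity), ← Real.rpow_mul hδ0.le, mul_one_div_cancel hp0.ne',
        Real.rpow_one] at h4
      linarith
  refine ⟨h, m, hh0, hhint, hhm, hm1, hmle, ?_⟩
  intro u v ω
  obtain ⟨w, hw1, hw2, hw3⟩ := hprop u v
  have h3 := hedge u w hw1 ω
  have h4 := hedge v w (Or.inr hw2) ω
  have h5 : |g u ω - g v ω| ≤ t * δ u v * h ω ^ (1 / p) := by
    have h6 : |g u ω - g v ω| ≤ |g u ω - g w ω| + |g v ω - g w ω| := by
      rw [abs_sub_comm (g v ω) (g w ω)]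
      exact abs_sub_le _ _ _
    have h7 : 0 ≤ h ω ^ (1 / p) := Real.rpow_nonneg (hh0 ω) _
    rw [hsymm w v] at hw3
    calc |g u ω - g v ω| ≤ (δ u w + δ v w) * h ω ^ (1 / p) := by linarith
      _ ≤ (t * δ u v) * h ω ^ (1 / p) := mul_le_mul_of_nonneg_right hw3 h7
  have hδ0 : 0 ≤ δ u v := norm_nonneg _
  calc |g u ω - g v ω| ^ p ≤ (t * δ u v * h ω ^ (1 / p)) ^ p :=
        Real.rpow_le_rpow (abs_nonneg _) h5 hp0.le
    _ = t ^ p * δ u v ^ p * h ω := by
        rw [Real.mul_rpow (by positivity) (Real.rpow_nonneg (hh0 ω) _),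
          Real.mul_rpow ht0.le hδ0, ← Real.rpow_mul (hh0 ω), one_div_mul_cancel hp0.ne',
          Real.rpow_one]

/-- Sampling points according to a dominating density. -/
lemma exists_points {p : ℝ} {X : Type*} [Fintype X] [DecidableEq X]
    (g : X → Ω → ℝ) (δ : X → X → ℝ) (hpos : ∀ x y, x ≠ y → 0 < δ x y)
    (hgi : ∀ x y : X, Integrable (fun ω => |g x ω - g y ω| ^ p) μ)
    (hgn : ∀ x y : X, ∫ ω, |g x ω - g y ω| ^ p ∂μ = δ x y ^ p)
    (h : Ω → ℝ) (m t : ℝ) (hh0 : ∀ ω, 0 ≤ h ω) (hhint : Integrable h μ)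
    (hhm : ∫ ω, h ω ∂μ = m) (hm0 : 0 < m) (ht0 : 0 < t)
    (hpair : ∀ u v : X, ∀ ω, |g u ω - g v ω| ^ p ≤ t ^ p * δ u v ^ p * h ω)
    {ε θ : ℝ} (hε : 0 < ε) (hθ : 0 < θ)
    (h1 : Real.exp θ - 1 ≤ θ * (1 + ε / 2)) (h2 : θ * (1 - ε / 2) ≤ 1 - Real.exp (-θ))
    (J : Finset (X × X)) (hJ : ∀ e ∈ J, e.1 ≠ e.2) (d : ℕ)
    (hk : 2 * (m * t ^ p) / (ε * θ) * Real.log (2 * J.card) ≤ d) :
    ∃ w : ℕ → Ω, (∀ i, 0 < h (w i)) ∧ ∀ e ∈ J,
      (1 - ε) * d ≤ ∑ i ∈ Finset.range d,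
        m * |g e.1 (w i) - g e.2 (w i)| ^ p / (h (w i) * δ e.1 e.2 ^ p) ∧
      ∑ i ∈ Finset.range d,
        m * |g e.1 (w i) - g e.2 (w i)| ^ p / (h (w i) * δ e.1 e.2 ^ p) ≤ (1 + ε) * d := by
  set ρ : Ω → ENNReal := fun ω => ENNReal.ofReal (h ω / m) with hρ
  set ν : Measure Ω := μ.withDensity ρ with hν
  have hhmeas : AEMeasurable h μ := hhint.aestronglyMeasurable.aemeasurable
  have hρmeas : AEMeasurable ρ μ := (hhmeas.div_const m).ennreal_ofReal
  have hρt : ∀ᵐ ω ∂μ, ρ ω < ⊤ := ae_of_all _ fun ω => ENNReal.ofReal_lt_top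
  have hprob : IsProbabilityMeasure ν := by
    constructor
    rw [hν, withDensity_apply _ MeasurableSet.univ, Measure.restrict_univ, hρ,
      ← ofReal_integral_eq_lintegral_ofReal (hhint.div_const m)
        (ae_of_all _ fun ω => div_nonneg (hh0 ω) hm0.le), integral_div, hhm, div_self hm0.ne',
      ENNReal.ofReal_one]
  set Z : X × X → Ω → ℝ := fun e ω => m * |g e.1 ω - g e.2 ω| ^ p / (h ω * δ e.1 e.2 ^ p) with hZ
  set B : ℝ := m * t ^ p with hB
  have hB0 : 0 < B := mul_pos hm0 (Real.rpow_pos_of_pos ht0 _)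
  have hZmeas : ∀ e ∈ J, AEStronglyMeasurable (Z e) ν := by
    intro e _
    have h3 : AEMeasurable (Z e) μ := by
      refine AEMeasurable.div ?_ ?_
      · exact ((hgi e.1 e.2).aestronglyMeasurable.aemeasurable).const_mul m
      · exact hhmeas.mul_const _
    exact (h3.aestronglyMeasurable).mono_ac (withDensity_absolutelyContinuous _ _)
  have hZ0 : ∀ e ∈ J, ∀ ω, 0 ≤ Z e ω := by
    intro e he ω
    exact div_nonneg (mul_nonneg hm0.le (Real.rpow_nonneg (abs_nonneg _) _))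
      (mul_nonneg (hh0 ω) (Real.rpow_nonneg (hpos _ _ (hJ e he)).le _))
  have hZB : ∀ e ∈ J, ∀ ω, Z e ω ≤ B := by
    intro e he ω
    have hδ0 := Real.rpow_pos_of_pos (hpos _ _ (hJ e he)) p
    rcases (hh0 ω).eq_or_lt with h3 | h3
    · simp only [hZ]
      rw [← h3, zero_mul, div_zero]
      exact hB0.le
    · simp only [hZ]
      rw [div_le_iff₀ (mul_pos h3 hδ0)]
      have := hpair e.1 e.2 ω
      calc m * |g e.1 ω - g e.2 ω| ^ p ≤ m * (t ^ p * δ e.1 e.2 ^ p * h ω) :=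
            mul_le_mul_of_nonneg_left this hm0.le
        _ = B * (h ω * δ e.1 e.2 ^ p) := by rw [hB]; ring
  have hmean : ∀ e ∈ J, ∫ ω, Z e ω ∂ν = 1 := by
    intro e he
    have hδ0 := Real.rpow_pos_of_pos (hpos _ _ (hJ e he)) p
    rw [hν, integral_withDensity_eq_integral_toReal_smul₀ hρmeas hρt]
    have h3 : ∀ ω, (ρ ω).toReal • Z e ω = |g e.1 ω - g e.2 ω| ^ p / δ e.1 e.2 ^ p := by
      intro ω
      simp only [hρ, hZ]
      rw [ENNReal.toReal_ofReal (div_nonneg (hh0 ω) hm0.le), smul_eq_mul]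
      rcases (hh0 ω).eq_or_lt with h4 | h4
      · have h5 := hpair e.1 e.2 ω
        rw [← h4, mul_zero] at h5
        have h6 : |g e.1 ω - g e.2 ω| ^ p = 0 :=
          le_antisymm h5 (Real.rpow_nonneg (abs_nonneg _) _)
        rw [h6]
        simp
      · field_simp
    simp_rw [h3]
    rw [integral_div, hgn, div_self hδ0.ne']
  have hS : ν {ω | h ω = 0} = 0 := by
    rw [hν, withDensity_apply_eq_zero' hρmeas]
    convert measure_empty (μ := μ)
    ext ω
    simp only [Set.mem_inter_iff, Set.mem_ofPred_eq, Set.mem_empty_iff_false, iff_false, not_and]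
    intro h3 h4
    apply h3
    simp [hρ, h4]
  obtain ⟨w, hwS, hw⟩ := exists_sample_eps ν J Z hZmeas B θ ε hB0 hθ h1 h2 hZ0 hZB hmean
    {ω | h ω = 0} hS d hk hε
  exact ⟨w, fun i => lt_of_le_of_ne (hh0 _) (fun h' => hwS i h'.symm), hw⟩

lemma embeds_of_large {p : ℝ} (hp : 1 ≤ p) {ε θ : ℝ} (hε : 0 < ε) (hε1 : ε < 1) (hθ : 0 < θ)
    (h1 : Real.exp θ - 1 ≤ θ * (1 + ε / 2)) (h2 : θ * (1 - ε / 2) ≤ 1 - Real.exp (-θ))
    (X : Finset (Lp ℝ (ENNReal.ofReal p) μ)) (hX : 2 ≤ X.card) (d : ℕ)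
    (hd : 2 * ((X.card : ℝ) * ((Nat.log 2 X.card : ℝ) + 2) ^ 2 *
        (2 * (Nat.log 2 X.card : ℝ) + 3) ^ p) / (ε * θ) * Real.log (2 * (X.card : ℝ) ^ 2) ≤ d)
    (hd1 : 1 ≤ d) :
    EmbedsWith p ((1 + ε) / (1 - ε)) d X := by
  classical
  have hp0 : 0 < p := lt_of_lt_of_le one_pos hp
  have hfact : Fact (1 ≤ ENNReal.ofReal p) := ⟨by
    rw [← ENNReal.ofReal_one]; exact ENNReal.ofReal_le_ofReal hp⟩
  obtain ⟨h, m, hh0, hhint, hhm, hm1, hmle, hpair⟩ := exists_density hp X hX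
  have hcardX : Fintype.card X = X.card := Fintype.card_coe X
  set n := X.card with hn
  set L := Nat.log 2 n with hL
  have hm0 : 0 < m := by linarith
  set t : ℝ := 2 * (L : ℝ) + 3 with ht
  have ht0 : 0 < t := by positivity
  have hpos : ∀ x y : X, x ≠ y → 0 < ‖(x : Lp ℝ (ENNReal.ofReal p) μ) - y‖ := by
    intro x y hxy
    rw [norm_pos_iff, sub_ne_zero]
    exact fun h => hxy (Subtype.ext h)
  set J : Finset (X × X) := Finset.univ.filter (fun e => e.1 ≠ e.2) with hJ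
  have hJcard : (J.card : ℝ) ≤ (n : ℝ) ^ 2 := by
    have : J.card ≤ n * n := by
      refine (Finset.card_filter_le _ _).trans ?_
      rw [Finset.card_univ, Fintype.card_prod, hcardX]
    calc (J.card : ℝ) ≤ ((n * n : ℕ) : ℝ) := by exact_mod_cast this
      _ = (n : ℝ) ^ 2 := by push_cast; ring
  have hk : 2 * (m * t ^ p) / (ε * θ) * Real.log (2 * J.card) ≤ d := by
    refine le_trans ?_ hd
    have hn0 : (2 : ℝ) ≤ n := by exact_mod_cast hX
    have hBle : m * t ^ p ≤ (n : ℝ) * ((L : ℝ) + 2) ^ 2 * t ^ p :=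
      mul_le_mul_of_nonneg_right hmle (by positivity)
    have hlog0 : 0 ≤ Real.log (2 * (n : ℝ) ^ 2) := Real.log_nonneg (by nlinarith)
    have hloge : Real.log (2 * J.card) ≤ Real.log (2 * (n : ℝ) ^ 2) := by
      rcases Nat.eq_zero_or_pos J.card with h0 | h0
      · rw [h0]; simpa using hlog0
      · exact Real.log_le_log (by positivity) (by linarith)
    calc 2 * (m * t ^ p) / (ε * θ) * Real.log (2 * J.card)
        ≤ 2 * (m * t ^ p) / (ε * θ) * Real.log (2 * (n : ℝ) ^ 2) :=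
          mul_le_mul_of_nonneg_left hloge (by positivity)
      _ ≤ _ := by
          refine mul_le_mul_of_nonneg_right ?_ hlog0
          refine div_le_div_of_nonneg_right ?_ (by positivity)
          linarith
  obtain ⟨w, hhw, hw⟩ := exists_points (fun (x : X) ω => (x : Lp ℝ (ENNReal.ofReal p) μ) ω)
    (fun x y => ‖(x : Lp ℝ (ENNReal.ofReal p) μ) - y‖) hpos
    (fun x y => (norm_sub_rpow hp _ _).1) (fun x y => (norm_sub_rpow hp _ _).2) h m t hh0 hhint
    hhm hm0 ht0 hpair hε hθ h1 h2 J (fun e he => (Finset.mem_filter.1 he).2) d hk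
  have hd0 : (0 : ℝ) < d := by exact_mod_cast hd1
  refine ⟨fun x k => (m / (d * h (w k))) ^ (1 / p) * (x : Lp ℝ (ENNReal.ofReal p) μ) (w k),
    (1 - ε) ^ (1 / p), Real.rpow_pos_of_pos (by linarith) _, ?_⟩
  intro x y
  simp only [lpDist, ellNorm, Pi.sub_apply]
  by_cases hxy : x = y
  · subst hxy
    simp [hp0.ne']
  have hδ0 := hpos x y hxy
  have hmemJ : (x, y) ∈ J := Finset.mem_filter.2 ⟨Finset.mem_univ _, hxy⟩
  obtain ⟨hlo, hup⟩ := hw (x, y) hmemJ
  simp only at hlo hup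
  set δ := ‖(x : Lp ℝ (ENNReal.ofReal p) μ) - y‖ with hδ
  set a : ℕ → ℝ := fun i => |(x : Lp ℝ (ENNReal.ofReal p) μ) (w i) -
    (y : Lp ℝ (ENNReal.ofReal p) μ) (w i)| with ha
  set T := ∑ i ∈ Finset.range d, m * a i ^ p / (h (w i) * δ ^ p) with hT
  have hsum : ∑ k : Fin d, |(m / (d * h (w k))) ^ (1 / p) *
        (x : Lp ℝ (ENNReal.ofReal p) μ) (w k) -
      (m / (d * h (w k))) ^ (1 / p) * (y : Lp ℝ (ENNReal.ofReal p) μ) (w k)| ^ p =
      δ ^ p * (T / d) := by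
    rw [hT, ← Fin.sum_univ_eq_sum_range (fun i => m * a i ^ p / (h (w i) * δ ^ p)) d,
      Finset.sum_div, Finset.mul_sum]
    refine Finset.sum_congr rfl fun k _ => ?_
    have hhk := hhw k
    have hq : 0 ≤ m / (d * h (w k)) := by positivity
    rw [← mul_sub, abs_mul, abs_of_nonneg (Real.rpow_nonneg hq _),
      Real.mul_rpow (Real.rpow_nonneg hq _) (abs_nonneg _),
      ← Real.rpow_mul hq, one_div_mul_cancel hp0.ne', Real.rpow_one]
    have hδp : δ ^ p ≠ 0 := (Real.rpow_pos_of_pos hδ0 _).ne'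
    simp only [ha]
    field_simp
  have havlo : 1 - ε ≤ T / d := by
    rw [le_div_iff₀ hd0]; exact hlo
  have havup : T / d ≤ 1 + ε := by
    rw [div_le_iff₀ hd0]; exact hup
  have hav0 : 0 ≤ T / d := le_trans (by linarith) havlo
  rw [hsum, Real.mul_rpow (Real.rpow_nonneg hδ0.le _) hav0, ← Real.rpow_mul hδ0.le,
      mul_one_div_cancel hp0.ne', Real.rpow_one]
  have h1ε : 0 < 1 - ε := by linarith
  constructor
  · rw [mul_comm]
    exact mul_le_mul_of_nonneg_left (Real.rpow_le_rpow h1ε.le havlo (by positivity)) hδ0.le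
  · have h3 : (T / d) ^ (1 / p) ≤ (1 + ε) / (1 - ε) * (1 - ε) ^ (1 / p) := by
      have hD : 1 ≤ (1 + ε) / (1 - ε) := by rw [le_div_iff₀ h1ε]; linarith
      calc (T / d) ^ (1 / p)
          ≤ (1 + ε) ^ (1 / p) := Real.rpow_le_rpow hav0 havup (by positivity)
        _ = ((1 + ε) / (1 - ε)) ^ (1 / p) * (1 - ε) ^ (1 / p) := by
            rw [← Real.mul_rpow (by positivity) h1ε.le, div_mul_cancel₀ _ h1ε.ne']
        _ ≤ ((1 + ε) / (1 - ε)) ^ (1 : ℝ) * (1 - ε) ^ (1 / p) := by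
            refine mul_le_mul_of_nonneg_right ?_ (Real.rpow_nonneg h1ε.le _)
            refine Real.rpow_le_rpow_of_exponent_le hD ?_
            rw [div_le_one hp0]; exact hp
        _ = _ := by rw [Real.rpow_one]
    calc δ * (T / d) ^ (1 / p)
        ≤ δ * ((1 + ε) / (1 - ε) * (1 - ε) ^ (1 / p)) := mul_le_mul_of_nonneg_left h3 hδ0.le
      _ = _ := by ring

end Vale.Agent.P249
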