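import Mathlib

/-!
# P249, part N: nets

`dominating_of_sparse`: a sparse family of pairs that dominates all the increments, for every
finite metric space, from the sparse resistance spanner of graphs.
-/

open Finset

namespace Vale.Agent.P249

universe u

/-- The conclusion of part G2 (`sparse`). -/
def SparseStmt (p : ℝ) : Prop :=
  ∃ C : ℝ, 1 ≤ C ∧ ∀ (V : Type u) [DecidableEq V] (S : Finset V) (G : Finset (V × V)),
    (∀ e ∈ G, e.1 ∈ S ∧ e.2 ∈ S) → ∃ H ⊆ G, (H.card : ℝ) ≤ C * S.card ∧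
      ∀ e ∈ G, ∀ g : V → ℝ, |g e.1 - g e.2| ^ p ≤ C * ∑ e' ∈ H, |g e'.1 - g e'.2| ^ p

section nets

variable {X : Type u} [DecidableEq X]

lemma exists_net (d : X → X → ℝ) (h0 : ∀ x, d x x = 0) (hs : ∀ x y, d x y = d y x)
    (S : Finset X) {r : ℝ} (hr : 0 < r) :
    ∃ T ⊆ S, (∀ x ∈ T, ∀ y ∈ T, x ≠ y → r ≤ d x y) ∧ ∀ x ∈ S, ∃ y ∈ T, d x y < r := by
  classical
  obtain ⟨Sep, hSep⟩ : ∃ Sep : Finset X → Prop, ∀ T, Sep T ↔
      ∀ x ∈ T, ∀ y ∈ T, x ≠ y → r ≤ d x y := ⟨_, fun _ => Iff.rfl⟩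
  set P := S.powerset.filter Sep with hP
  have hne : P.Nonempty := ⟨∅, by simp [hP, hSep]⟩
  obtain ⟨T, hTP, hmax⟩ := Finset.exists_max_image P Finset.card hne
  rw [hP, mem_filter, mem_powerset, hSep] at hTP
  refine ⟨T, hTP.1, hTP.2, fun x hx => ?_⟩
  by_contra hcon
  push Not at hcon
  have hxT : x ∉ T := fun h => by
    have := hcon x h
    rw [h0] at this
    linarith
  have hmem : insert x T ∈ P := by
    rw [hP, mem_filter, mem_powerset, hSep]
    refine ⟨insert_subset hx hTP.1, fun a ha b hb hab => ?_⟩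
    rw [mem_insert] at ha hb
    rcases ha with rfl | ha <;> rcases hb with rfl | hb
    · exact absurd rfl hab
    · exact hcon b hb
    · rw [hs]; exact hcon a ha
    · exact hTP.2 a ha b hb hab
  have := hmax _ hmem
  rw [card_insert_of_notMem hxT] at this
  omega

lemma exists_net_par (d : X → X → ℝ) (h0 : ∀ x, d x x = 0) (hs : ∀ x y, d x y = d y x)
    (S : Finset X) {r : ℝ} (hr : 0 < r) :
    ∃ (T : Finset X) (f : X → X), T ⊆ S ∧ (∀ x ∈ T, ∀ y ∈ T, x ≠ y → r ≤ d x y) ∧
      (∀ x ∈ S, f x ∈ T ∧ d x (f x) ≤ r) ∧ (∀ x ∈ T, f x = x) := by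
  classical
  obtain ⟨T, hTS, hsep, hcov⟩ := exists_net d h0 hs S hr
  refine ⟨T, fun x => if x ∈ T then x else if h : ∃ y ∈ T, d x y < r then h.choose else x,
    hTS, hsep, fun x hx => ?_, fun x hx => ?_⟩
  · by_cases hxT : x ∈ T
    · simp [hxT, h0, hr.le]
    · have h := hcov x hx
      simp only [hxT, if_false, h, dite_true]
      exact ⟨h.choose_spec.1, h.choose_spec.2.le⟩
  · simp [hx]

/-- telescoping with step 4 -/
lemma sum_tele4 (a : ℕ → ℕ) (hmono : ∀ i, a (i + 1) ≤ a i) (I : ℕ) :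
    ∑ i ∈ range I, (a i - a (i + 4)) ≤ 4 * a 0 := by
  have hanti : Antitone a := antitone_nat_of_succ_le hmono
  have key : ∀ I, ∑ i ∈ range I, (a i - a (i + 4)) + (a I + a (I + 1) + a (I + 2) + a (I + 3))
      ≤ a 0 + a 1 + a 2 + a 3 := by
    intro I
    induction I with
    | zero => simp
    | succ I ih =>
      rw [sum_range_succ]
      have h1 : a (I + 4) ≤ a I := hanti (by omega)
      have h2 : a (I + 1 + 1) = a (I + 2) := rfl
      have h3 : a (I + 1 + 2) = a (I + 3) := rfl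
      have h4 : a (I + 1 + 3) = a (I + 4) := rfl
      rw [h2, h3, h4]
      omega
  have h := key I
  have h1 : a 1 ≤ a 0 := hanti (by omega)
  have h2 : a 2 ≤ a 0 := hanti (by omega)
  have h3 : a 3 ≤ a 0 := hanti (by omega)
  omega

lemma sum_tele1 (a : ℕ → ℕ) (hmono : ∀ i, a (i + 1) ≤ a i) (I : ℕ) :
    ∑ i ∈ range I, (a i - a (i + 1)) ≤ a 0 := by
  have key : ∀ I, ∑ i ∈ range I, (a i - a (i + 1)) + a I ≤ a 0 := by
    intro I
    induction I with
    | zero => simp
    | succ I ih =>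
      rw [sum_range_succ]
      have := hmono I
      omega
  have := key I
  omega

/-- The vertices of a separated set which have a neighbour are few, compared to those which are
not in the net four levels up. -/
lemma card_W (d : X → X → ℝ) (hs : ∀ x y, d x y = d y x) (ht : ∀ x y z, d x z ≤ d x y + d y z)
    {r : ℝ} (hr : 0 < r) (A B : Finset X) (hBA : B ⊆ A)
    (hB : ∀ x ∈ B, ∀ y ∈ B, x ≠ y → 16 * r ≤ d x y) :
    (A.filter (fun x => ∃ y ∈ A, x ≠ y ∧ d x y ≤ 6 * r)).card ≤ 2 * (A.card - B.card) := by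
  classical
  set W := A.filter (fun x => ∃ y ∈ A, x ≠ y ∧ d x y ≤ 6 * r) with hW
  have hsplit : W = (W \ B) ∪ (W ∩ B) := by
    rw [Finset.sdiff_union_inter]
  have h1 : (W \ B).card ≤ (A \ B).card := by
    apply card_le_card
    intro x hx
    rw [mem_sdiff] at hx ⊢
    exact ⟨(mem_filter.1 hx.1).1, hx.2⟩
  have h2 : (W ∩ B).card ≤ (A \ B).card := by
    have hch : ∀ x ∈ W ∩ B, ∃ y ∈ A, x ≠ y ∧ d x y ≤ 6 * r := by
      intro x hx
      exact (mem_filter.1 (mem_inter.1 hx).1).2
    choose! f hfA hfne hfd using hch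
    refine card_le_card_of_injOn f ?_ ?_
    · intro x hx
      have hx' : x ∈ W ∩ B := hx
      have hxB := (mem_inter.1 hx').2
      rw [Finset.mem_coe, mem_sdiff]
      refine ⟨hfA x hx', fun hfB => ?_⟩
      have := hB x hxB _ hfB (hfne x hx')
      have := hfd x hx'
      linarith
    · intro x hx y hy hxy
      have hx' : x ∈ W ∩ B := hx
      have hy' : y ∈ W ∩ B := hy
      by_contra hne
      have h3 := hB x (mem_inter.1 hx').2 y (mem_inter.1 hy').2 hne
      have h4 := ht x (f x) y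
      have h5 := hfd x hx'
      have h6 := hfd y hy'
      have h7 : d (f x) y = d y (f y) := by rw [hs, hxy]
      linarith
  have h3 : (A \ B).card = A.card - B.card := by
    rw [card_sdiff_of_subset hBA]
  have h4 : W.card ≤ (W \ B).card + (W ∩ B).card := by
    conv_lhs => rw [hsplit]
    exact card_union_le _ _
  omega

end nets

theorem dominating_of_sparse {p : ℝ} (hp : 1 ≤ p) (hsparse : SparseStmt.{u} p) :
    ∃ C : ℝ, 0 < C ∧ ∀ (X : Type u) [Fintype X] [DecidableEq X] (d : X → X → ℝ),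
      (∀ x, d x x = 0) → (∀ x y, d x y = d y x) → (∀ x y z, d x z ≤ d x y + d y z) →
      (∀ x y, x ≠ y → 0 < d x y) →
      ∃ E : Finset (X × X), (E.card : ℝ) ≤ C * Fintype.card X ∧ (∀ e ∈ E, e.1 ≠ e.2) ∧
        ∀ (g : X → ℝ) (x y : X), |g x - g y| ^ p ≤
          C * d x y ^ p * ∑ e ∈ E, |g e.1 - g e.2| ^ p / d e.1 e.2 ^ p := by
  classical
  obtain ⟨C, hC1, hsp⟩ := hsparse
  have hp0 : 0 < p := by linarith
  set K : ℝ := (4 + 6 * C) ^ p + 8 * C + 1 with hK
  have hKp : 0 < (4 + 6 * C) ^ p := Real.rpow_pos_of_pos (by linarith) _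
  refine ⟨K, by rw [hK]; linarith, ?_⟩
  intro X _ _ d h0 hs ht hpos
  -- the least distance
  have hmin : ∃ r0 : ℝ, 0 < r0 ∧ ∀ x y, x ≠ y → r0 ≤ d x y := by
    by_cases hne : ((univ : Finset (X × X)).filter (fun e => e.1 ≠ e.2)).Nonempty
    · obtain ⟨e, he, hemin⟩ := Finset.exists_min_image _ (fun e : X × X => d e.1 e.2) hne
      refine ⟨d e.1 e.2, hpos _ _ (mem_filter.1 he).2, fun x y hxy => ?_⟩
      exact hemin (x, y) (mem_filter.2 ⟨mem_univ _, hxy⟩)
    · refine ⟨1, one_pos, fun x y hxy => ?_⟩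
      exact absurd ⟨(x, y), mem_filter.2 ⟨mem_univ _, hxy⟩⟩ hne
  obtain ⟨r0, hr0, hr0min⟩ := hmin
  set r : ℕ → ℝ := fun i => r0 * 2 ^ i with hrdef
  have hrpos : ∀ i, 0 < r i := fun i => by positivity
  have hrsucc : ∀ i, r (i + 1) = 2 * r i := fun i => by simp only [hrdef]; ring
  -- the largest distance
  have hmax : ∃ I : ℕ, ∀ x y, d x y < r I := by
    obtain ⟨D, hD⟩ : ∃ D : ℝ, ∀ e : X × X, d e.1 e.2 ≤ D := by
      have := (Set.finite_range (fun e : X × X => d e.1 e.2)).bddAbove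
      obtain ⟨D, hD⟩ := this
      exact ⟨D, fun e => hD ⟨e, rfl⟩⟩
    obtain ⟨I, hI⟩ := pow_unbounded_of_one_lt (D / r0) (one_lt_two)
    refine ⟨I, fun x y => ?_⟩
    have h1 := hD (x, y)
    rw [div_lt_iff₀ hr0] at hI
    simp only [hrdef]
    simp only at h1
    linarith
  obtain ⟨I, hI⟩ := hmax
  -- the nets
  have key : ∀ (i : ℕ) (S : Finset X), ∃ (T : Finset X) (f : X → X), T ⊆ S ∧
      (∀ x ∈ T, ∀ y ∈ T, x ≠ y → r (i + 1) ≤ d x y) ∧
      (∀ x ∈ S, f x ∈ T ∧ d x (f x) ≤ r (i + 1)) ∧ (∀ x ∈ T, f x = x) :=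
    fun i S => exists_net_par d h0 hs S (hrpos (i + 1))
  choose T f hTS hTsep hfT hfid using key
  let V : ℕ → Finset X := fun n => Nat.rec univ (fun i S => T i S) n
  have hV0 : V 0 = univ := rfl
  have hVs : ∀ i, V (i + 1) = T i (V i) := fun i => rfl
  let anc : ℕ → X → X := fun n => Nat.rec id (fun i a x => f i (V i) (a x)) n
  have ha0 : ∀ x, anc 0 x = x := fun x => rfl
  have has : ∀ i x, anc (i + 1) x = f i (V i) (anc i x) := fun i x => rfl
  have hVsub : ∀ i, V (i + 1) ⊆ V i := fun i => by rw [hVs]; exact hTS i _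
  have hVanti : Antitone V := antitone_nat_of_succ_le hVsub
  have hVsep : ∀ i, ∀ x ∈ V i, ∀ y ∈ V i, x ≠ y → r i ≤ d x y := by
    intro i
    cases i with
    | zero =>
      intro x _ y _ hxy
      have := hr0min x y hxy
      simp only [hrdef, pow_zero, mul_one]
      exact this
    | succ i => rw [hVs]; exact hTsep i _
  have hancV : ∀ i x, anc i x ∈ V i := by
    intro i x
    induction i with
    | zero => rw [hV0]; exact mem_univ _
    | succ i ih => rw [has, hVs]; exact (hfT i _ _ ih).1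
  have hstep : ∀ i x, d (anc i x) (anc (i + 1) x) ≤ r (i + 1) := by
    intro i x
    rw [has]
    exact (hfT i _ _ (hancV i x)).2
  have hdanc : ∀ i x, d x (anc i x) ≤ 2 * r i - 2 * r 0 := by
    intro i x
    induction i with
    | zero => rw [ha0, h0]; linarith
    | succ i ih =>
      have h1 := ht x (anc i x) (anc (i + 1) x)
      have h2 := hstep i x
      rw [hrsucc] at h2 ⊢
      linarith
  -- the graphs
  let G : ℕ → Finset (X × X) := fun i =>
    ((V i) ×ˢ (V i)).filter (fun e => e.1 ≠ e.2 ∧ d e.1 e.2 ≤ 6 * r i)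
  let W : ℕ → Finset X := fun i =>
    (V i).filter (fun x => ∃ y ∈ V i, x ≠ y ∧ d x y ≤ 6 * r i)
  have hGW : ∀ i, ∀ e ∈ G i, e.1 ∈ W i ∧ e.2 ∈ W i := by
    intro i e he
    obtain ⟨he1, he2, he3⟩ := mem_filter.1 he
    rw [mem_product] at he1
    refine ⟨mem_filter.2 ⟨he1.1, e.2, he1.2, he2, he3⟩, mem_filter.2 ⟨he1.2, e.1, he1.1, he2.symm, ?_⟩⟩
    rw [hs]; exact he3
  have hH := fun i => hsp X (W i) (G i) (hGW i)
  choose H hHG hHcard hHdom using hH
  let P : ℕ → Finset (X × X) := fun i =>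
    (V i \ V (i + 1)).image (fun x => (x, f i (V i) x))
  let E : Finset (X × X) := (range I).biUnion (fun i => H i ∪ P i)
  have hEne : ∀ e ∈ E, e.1 ≠ e.2 := by
    intro e he
    obtain ⟨i, hi, he⟩ := mem_biUnion.1 he
    rw [mem_union] at he
    rcases he with he | he
    · exact (mem_filter.1 (hHG i he)).2.1
    · obtain ⟨x, hx, rfl⟩ := mem_image.1 he
      rw [mem_sdiff] at hx
      intro heq
      simp only at heq
      apply hx.2
      rw [hVs, heq]
      exact (hfT i _ _ hx.1).1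
  have hcard : (E.card : ℝ) ≤ (8 * C + 1) * Fintype.card X := by
    have h1 : E.card ≤ ∑ i ∈ range I, ((H i).card + (P i).card) := by
      refine card_biUnion_le.trans (sum_le_sum fun i _ => card_union_le _ _)
    have hPc : ∀ i, (P i).card ≤ (V i).card - (V (i + 1)).card := by
      intro i
      refine card_image_le.trans ?_
      rw [card_sdiff_of_subset (hVsub i)]
    have hWc : ∀ i, (W i).card ≤ 2 * ((V i).card - (V (i + 4)).card) := by
      intro i
      refine card_W d hs ht (hrpos i) (V i) (V (i + 4)) (hVanti (show i ≤ i + 4 by omega)) ?_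
      intro x hx y hy hxy
      have := hVsep (i + 4) x hx y hy hxy
      have h4 : r (i + 4) = 16 * r i := by simp only [hrdef]; ring
      rw [h4] at this
      exact this
    have hmono : ∀ i, (V (i + 1)).card ≤ (V i).card := fun i => card_le_card (hVsub i)
    have hP : ∑ i ∈ range I, (P i).card ≤ Fintype.card X := by
      calc ∑ i ∈ range I, (P i).card ≤ ∑ i ∈ range I, ((V i).card - (V (i + 1)).card) :=
            sum_le_sum fun i _ => hPc i
        _ ≤ (V 0).card := sum_tele1 (fun i => (V i).card) hmono I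
        _ = Fintype.card X := by rw [hV0, card_univ]
    have hW : ∑ i ∈ range I, (W i).card ≤ 8 * Fintype.card X := by
      calc ∑ i ∈ range I, (W i).card ≤ ∑ i ∈ range I, 2 * ((V i).card - (V (i + 4)).card) :=
            sum_le_sum fun i _ => hWc i
        _ = 2 * ∑ i ∈ range I, ((V i).card - (V (i + 4)).card) := by rw [mul_sum]
        _ ≤ 2 * (4 * (V 0).card) :=
            Nat.mul_le_mul_left _ (sum_tele4 (fun i => (V i).card) hmono I)
        _ = 8 * Fintype.card X := by rw [hV0, card_univ]; ring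
    have hHr : ∑ i ∈ range I, ((H i).card : ℝ) ≤ C * (8 * Fintype.card X) := by
      calc ∑ i ∈ range I, ((H i).card : ℝ) ≤ ∑ i ∈ range I, C * ((W i).card : ℝ) :=
            sum_le_sum fun i _ => hHcard i
        _ = C * ∑ i ∈ range I, ((W i).card : ℝ) := by rw [mul_sum]
        _ ≤ C * (8 * Fintype.card X) := by
            refine mul_le_mul_of_nonneg_left ?_ (by linarith)
            exact_mod_cast hW
    have h2 : (E.card : ℝ) ≤ ∑ i ∈ range I, ((H i).card : ℝ) + ∑ i ∈ range I, ((P i).card : ℝ) := by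
      rw [← sum_add_distrib]
      exact_mod_cast h1
    have h3 : (∑ i ∈ range I, ((P i).card : ℝ)) ≤ Fintype.card X := by exact_mod_cast hP
    calc (E.card : ℝ) ≤ C * (8 * Fintype.card X) + Fintype.card X := by linarith
      _ = (8 * C + 1) * Fintype.card X := by ring
  refine ⟨E, hcard.trans ?_, hEne, ?_⟩
  · refine mul_le_mul_of_nonneg_right ?_ (Nat.cast_nonneg _)
    rw [hK]; linarith
  intro g x y
  set Φ : ℝ := ∑ e ∈ E, |g e.1 - g e.2| ^ p / d e.1 e.2 ^ p with hΦ
  have hdnn : ∀ a b, 0 ≤ d a b := by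
    intro a b
    by_cases hab : a = b
    · rw [hab, h0]
    · exact (hpos a b hab).le
  have hterm : ∀ e : X × X, 0 ≤ |g e.1 - g e.2| ^ p / d e.1 e.2 ^ p := fun e =>
    div_nonneg (Real.rpow_nonneg (abs_nonneg _) _) (Real.rpow_nonneg (hdnn _ _) _)
  have hΦ0 : 0 ≤ Φ := sum_nonneg fun e _ => hterm e
  set φ : ℝ := Φ ^ (1 / p) with hφ
  have hφ0 : 0 ≤ φ := Real.rpow_nonneg hΦ0 _
  have hφp : φ ^ p = Φ := by
    rw [hφ, ← Real.rpow_mul hΦ0, one_div, inv_mul_cancel₀ hp0.ne', Real.rpow_one]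
  -- an edge of `E`
  have hedge : ∀ e ∈ E, |g e.1 - g e.2| ≤ d e.1 e.2 * φ := by
    intro e he
    have h1 : |g e.1 - g e.2| ^ p / d e.1 e.2 ^ p ≤ Φ :=
      single_le_sum (f := fun e : X × X => |g e.1 - g e.2| ^ p / d e.1 e.2 ^ p)
        (fun e _ => hterm e) he
    have hdp : 0 < d e.1 e.2 ^ p := Real.rpow_pos_of_pos (hpos _ _ (hEne e he)) _
    rw [div_le_iff₀ hdp, ← hφp, ← Real.mul_rpow hφ0 (hdnn _ _)] at h1
    have h2 := (Real.rpow_le_rpow_iff (abs_nonneg _) (mul_nonneg hφ0 (hdnn _ _)) hp0).1 h1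
    rw [mul_comm]
    exact h2
  -- one step up
  have hgstep : ∀ i < I, ∀ x, |g (anc i x) - g (anc (i + 1) x)| ≤ r (i + 1) * φ := by
    intro i hi x
    have hd := hstep i x
    rcases Classical.em (anc i x ∈ V (i + 1)) with hmem | hmem
    · have : anc (i + 1) x = anc i x := by
        rw [has]
        exact hfid i (V i) _ hmem
      rw [this, sub_self, abs_zero]
      exact mul_nonneg (hrpos _).le hφ0
    · have hE : (anc i x, anc (i + 1) x) ∈ E := by
        refine mem_biUnion.2 ⟨i, mem_range.2 hi, mem_union.2 (Or.inr ?_)⟩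
        exact mem_image.2 ⟨anc i x, mem_sdiff.2 ⟨hancV i x, hmem⟩, rfl⟩
      refine (hedge _ hE).trans ?_
      exact mul_le_mul_of_nonneg_right hd hφ0
  have hganc : ∀ i ≤ I, ∀ x, |g x - g (anc i x)| ≤ (2 * r i - 2 * r 0) * φ := by
    intro i
    induction i with
    | zero => intro _ x; rw [ha0, sub_self, abs_zero]; simp
    | succ i ih =>
      intro hi x
      have h1 := ih (by omega) x
      have h2 := hgstep i (by omega) x
      have h3 : |g x - g (anc (i + 1) x)| ≤
          |g x - g (anc i x)| + |g (anc i x) - g (anc (i + 1) x)| := abs_sub_le _ _ _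
      rw [hrsucc] at h2 ⊢
      nlinarith
  by_cases hxy : x = y
  · rw [hxy, sub_self, abs_zero, Real.zero_rpow hp0.ne', h0, Real.zero_rpow hp0.ne']
    simp
  -- the level of the pair
  have hdxy : r 0 ≤ d x y := by
    have := hr0min x y hxy
    simp only [hrdef, pow_zero, mul_one]
    exact this
  obtain ⟨i, hi1, hi2⟩ : ∃ i, r i ≤ d x y ∧ d x y < r (i + 1) := by
    have hex : ∃ n, d x y < r n := ⟨I, hI x y⟩
    have hspec := Nat.find_spec hex
    have hmin := fun m (hm : m < Nat.find hex) => Nat.find_min hex hm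
    rcases Nat.eq_zero_or_pos (Nat.find hex) with h | h
    · rw [h] at hspec; linarith
    · refine ⟨Nat.find hex - 1, ?_, ?_⟩
      · exact not_lt.1 (hmin _ (by omega))
      · have : Nat.find hex - 1 + 1 = Nat.find hex := by omega
        rw [this]; exact hspec
  have hiI : i < I := by
    by_contra hcon
    push Not at hcon
    have h1 : r I ≤ r i := by
      simp only [hrdef]
      exact mul_le_mul_of_nonneg_left (pow_le_pow_right₀ one_le_two hcon) hr0.le
    have h2 := hI x y
    linarith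
  have hr00 : 0 < r 0 := hrpos 0
  have hri : 0 < r i := hrpos i
  have hgx := hganc i hiI.le x
  have hgy := hganc i hiI.le y
  have hmid : |g (anc i x) - g (anc i y)| ≤ 6 * C * r i * φ := by
    rcases Classical.em (anc i x = anc i y) with heq | heq
    · rw [heq, sub_self, abs_zero]
      have : 0 ≤ C := by linarith
      positivity
    have hdi : d (anc i x) (anc i y) ≤ 6 * r i := by
      have h1 := hdanc i x
      have h2 := hdanc i y
      have h3 := ht (anc i x) x (anc i y)
      have h4 := ht x y (anc i y)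
      rw [hs (anc i x) x] at h3
      rw [hrsucc] at hi2
      linarith
    have hGe : (anc i x, anc i y) ∈ G i :=
      mem_filter.2 ⟨mem_product.2 ⟨hancV i x, hancV i y⟩, heq, hdi⟩
    have h1 := hHdom i _ hGe g
    have h2 : ∑ e' ∈ H i, |g e'.1 - g e'.2| ^ p ≤ (6 * r i) ^ p * Φ := by
      calc ∑ e' ∈ H i, |g e'.1 - g e'.2| ^ p
          ≤ ∑ e' ∈ H i, (6 * r i) ^ p * (|g e'.1 - g e'.2| ^ p / d e'.1 e'.2 ^ p) := by
            refine sum_le_sum fun e he => ?_
            have hG := mem_filter.1 (hHG i he)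
            have hdp : 0 < d e.1 e.2 ^ p := Real.rpow_pos_of_pos (hpos _ _ hG.2.1) _
            have hle : d e.1 e.2 ^ p ≤ (6 * r i) ^ p :=
              Real.rpow_le_rpow (hdnn _ _) hG.2.2 hp0.le
            rw [mul_div_assoc', le_div_iff₀ hdp, mul_comm]
            exact mul_le_mul_of_nonneg_right hle (Real.rpow_nonneg (abs_nonneg _) _)
        _ = (6 * r i) ^ p * ∑ e' ∈ H i, (|g e'.1 - g e'.2| ^ p / d e'.1 e'.2 ^ p) := by
            rw [mul_sum]
        _ ≤ (6 * r i) ^ p * Φ := by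
            refine mul_le_mul_of_nonneg_left ?_ (Real.rpow_nonneg (by linarith) _)
            refine sum_le_sum_of_subset_of_nonneg ?_ (fun e _ _ => hterm e)
            intro e he
            exact mem_biUnion.2 ⟨i, mem_range.2 hiI, mem_union.2 (Or.inl he)⟩
    have hCp : C ≤ C ^ p := by
      calc C = C ^ (1 : ℝ) := (Real.rpow_one C).symm
        _ ≤ C ^ p := Real.rpow_le_rpow_of_exponent_le hC1 hp
    have h3 : |g (anc i x) - g (anc i y)| ^ p ≤ (6 * C * r i * φ) ^ p := by
      have e1 : (6 * C * r i * φ) ^ p = C ^ p * ((6 * r i) ^ p * Φ) := by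
        have : 6 * C * r i * φ = C * ((6 * r i) * φ) := by ring
        rw [this, Real.mul_rpow (by linarith) (by positivity),
          Real.mul_rpow (by positivity) hφ0, hφp]
      rw [e1]
      have hnn : 0 ≤ (6 * r i) ^ p * Φ := mul_nonneg (Real.rpow_nonneg (by linarith) _) hΦ0
      calc |g (anc i x) - g (anc i y)| ^ p ≤ C * ∑ e' ∈ H i, |g e'.1 - g e'.2| ^ p := h1
        _ ≤ C * ((6 * r i) ^ p * Φ) := mul_le_mul_of_nonneg_left h2 (by linarith)
        _ ≤ C ^ p * ((6 * r i) ^ p * Φ) := mul_le_mul_of_nonneg_right hCp hnn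
    have hnn2 : 0 ≤ 6 * C * r i * φ := by
      have : 0 ≤ C := by linarith
      positivity
    exact (Real.rpow_le_rpow_iff (abs_nonneg _) hnn2 hp0).1 h3
  have htot : |g x - g y| ≤ (4 + 6 * C) * d x y * φ := by
    have h1 : |g x - g y| ≤ |g x - g (anc i x)| + |g (anc i x) - g (anc i y)| +
        |g (anc i y) - g y| := by
      have := abs_sub_le (g x) (g (anc i x)) (g y)
      have := abs_sub_le (g (anc i x)) (g (anc i y)) (g y)
      linarith
    rw [abs_sub_comm (g (anc i y)) (g y)] at h1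
    have h2 : |g x - g y| ≤ (4 + 6 * C) * r i * φ := by
      have h3 : 0 ≤ r 0 * φ := mul_nonneg hr00.le hφ0
      nlinarith
    refine h2.trans ?_
    refine mul_le_mul_of_nonneg_right ?_ hφ0
    exact mul_le_mul_of_nonneg_left hi1 (by linarith)
  have hfin : |g x - g y| ^ p ≤ (4 + 6 * C) ^ p * d x y ^ p * Φ := by
    have h1 := Real.rpow_le_rpow (abs_nonneg _) htot hp0.le
    rw [Real.mul_rpow (mul_nonneg (by linarith) (hdnn x y)) hφ0,
      Real.mul_rpow (by linarith) (hdnn x y), hφp] at h1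
    exact h1
  refine hfin.trans ?_
  refine mul_le_mul_of_nonneg_right ?_ hΦ0
  refine mul_le_mul_of_nonneg_right ?_ (Real.rpow_nonneg (hdnn x y) _)
  rw [hK]; linarith

end Vale.Agent.P249
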