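import Mathlib

/-!
Lower bounds for the `p`-energy from edge isoperimetry.
-/

namespace Vale.Agent.P249

open Finset MeasureTheory

section

variable {V : Type*}

/-- number of points of `S` where `g` exceeds `t` -/
noncomputable def cnt (S : Finset V) (g : V → ℝ) (t : ℝ) : ℕ := (S.filter fun x => t < g x).card

lemma cnt_anti (S : Finset V) (g : V → ℝ) {s t : ℝ} (h : s ≤ t) : cnt S g t ≤ cnt S g s := by
  unfold cnt
  apply card_le_card
  intro x hx
  rw [mem_filter] at hx ⊢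
  exact ⟨hx.1, lt_of_le_of_lt h hx.2⟩

lemma exists_tau (S : Finset V) (g : V → ℝ) (m : ℝ) {k : ℕ} (hk : 0 < k) :
    ∃ τ, m ≤ τ ∧ cnt S g τ < k ∧ ∀ t, m ≤ t → t < τ → k ≤ cnt S g t := by
  classical
  set U : Finset ℝ := insert m (S.image g) with hU
  have hUne : U.Nonempty := ⟨m, mem_insert_self _ _⟩
  set T : Finset ℝ := U.filter fun t => m ≤ t ∧ cnt S g t < k with hT
  have hTne : T.Nonempty := by
    refine ⟨U.max' hUne, mem_filter.2 ⟨U.max'_mem hUne, U.le_max' m (mem_insert_self _ _), ?_⟩⟩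
    have : cnt S g (U.max' hUne) = 0 := by
      unfold cnt
      rw [card_eq_zero, filter_eq_empty_iff]
      intro x hx
      rw [not_lt]
      exact U.le_max' _ (mem_insert_of_mem (mem_image_of_mem g hx))
    omega
  have hmin := mem_filter.1 (T.min'_mem hTne)
  refine ⟨T.min' hTne, hmin.2.1, hmin.2.2, ?_⟩
  intro t hmt htτ
  by_contra hcon
  push Not at hcon
  set T2 : Finset ℝ := U.filter fun s => s ≤ t with hT2
  have hT2ne : T2.Nonempty := ⟨m, mem_filter.2 ⟨mem_insert_self _ _, hmt⟩⟩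
  have hmem := mem_filter.1 (T2.max'_mem hT2ne)
  have hmm : m ≤ T2.max' hT2ne := T2.le_max' m (mem_filter.2 ⟨mem_insert_self _ _, hmt⟩)
  have hcnt : cnt S g (T2.max' hT2ne) ≤ cnt S g t := by
    unfold cnt
    apply card_le_card
    intro x hx
    rw [mem_filter] at hx ⊢
    refine ⟨hx.1, ?_⟩
    by_contra hxt
    push Not at hxt
    have : g x ≤ T2.max' hT2ne :=
      T2.le_max' _ (mem_filter.2 ⟨mem_insert_of_mem (mem_image_of_mem g hx.1), hxt⟩)
    linarith [hx.2]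
  have hle : T.min' hTne ≤ T2.max' hT2ne :=
    T.min'_le _ (mem_filter.2 ⟨hmem.1, hmm, by omega⟩)
  linarith [hmem.2]

lemma exists_median (S : Finset V) (hS : S.Nonempty) (g : V → ℝ) :
    ∃ m, 2 * cnt S g m ≤ S.card ∧ 2 * cnt S (fun x => -g x) (-m) ≤ S.card := by
  classical
  set U : Finset ℝ := (S.image g).filter fun t => 2 * cnt S g t ≤ S.card with hU
  have hIne : (S.image g).Nonempty := hS.image g
  have hUne : U.Nonempty := by
    refine ⟨(S.image g).max' hIne, mem_filter.2 ⟨(S.image g).max'_mem hIne, ?_⟩⟩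
    have : cnt S g ((S.image g).max' hIne) = 0 := by
      unfold cnt
      rw [card_eq_zero, filter_eq_empty_iff]
      intro x hx
      rw [not_lt]
      exact (S.image g).le_max' _ (mem_image_of_mem g hx)
    omega
  have hmin := mem_filter.1 (U.min'_mem hUne)
  refine ⟨U.min' hUne, hmin.2, ?_⟩
  set m := U.min' hUne with hm
  by_contra hcon
  push Not at hcon
  -- the values below `m`
  set W : Finset ℝ := (S.image g).filter fun t => t < m with hW
  have hlow : cnt S (fun x => -g x) (-m) = (S.filter fun x => g x < m).card := by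
    unfold cnt
    congr 1
    ext x
    simp only [mem_filter, neg_lt_neg_iff]
  have hne : (S.filter fun x => g x < m).Nonempty := by
    rw [← card_pos, ← hlow]; omega
  obtain ⟨x0, hx0⟩ := hne
  rw [mem_filter] at hx0
  have hWne : W.Nonempty := ⟨g x0, mem_filter.2 ⟨mem_image_of_mem g hx0.1, hx0.2⟩⟩
  have hWmem := mem_filter.1 (W.max'_mem hWne)
  have hsum : cnt S g (W.max' hWne) + (S.filter fun x => g x < m).card ≤ S.card := by
    unfold cnt
    rw [← card_union_of_disjoint]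
    · exact card_le_card (union_subset (filter_subset _ _) (filter_subset _ _))
    · rw [disjoint_left]
      intro x hx hx'
      rw [mem_filter] at hx hx'
      have : g x ≤ W.max' hWne := W.le_max' _ (mem_filter.2 ⟨mem_image_of_mem g hx.1, hx'.2⟩)
      linarith [hx.2]
  have hmem : W.max' hWne ∈ U := mem_filter.2 ⟨hWmem.1, by omega⟩
  have := U.min'_le _ hmem
  linarith [hWmem.2]

/-- total length of the crossing edges -/
lemma crossing_integral (Sh : Finset (V × V)) (g : V → ℝ) {a b k : ℝ} (hab : a ≤ b)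
    (h : ∀ t, a ≤ t → t < b → k ≤ ((Sh.filter fun e =>
      (t < g e.1 ∧ g e.2 ≤ t) ∨ (g e.1 ≤ t ∧ t < g e.2)).card : ℝ)) :
    (b - a) * k ≤ ∑ e ∈ Sh, |g e.1 - g e.2| := by
  classical
  set I : V × V → Set ℝ := fun e => Set.Ico (min (g e.1) (g e.2)) (max (g e.1) (g e.2)) with hI
  have hcount : ∀ t, ((Sh.filter fun e =>
      (t < g e.1 ∧ g e.2 ≤ t) ∨ (g e.1 ≤ t ∧ t < g e.2)).card : ℝ) =
      ∑ e ∈ Sh, (I e).indicator (fun _ => (1 : ℝ)) t := by
    intro t
    rw [card_filter]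
    push_cast
    refine sum_congr rfl fun e _ => ?_
    rw [Set.indicator_apply]
    congr 1
    rw [hI]
    simp only [Set.mem_Ico, min_le_iff, lt_max_iff, eq_iff_iff]
    constructor
    · rintro (⟨h1, h2⟩ | ⟨h1, h2⟩)
      · exact ⟨Or.inr h2, Or.inl h1⟩
      · exact ⟨Or.inl h1, Or.inr h2⟩
    · rintro ⟨h1 | h1, h2 | h2⟩
      · exfalso; linarith
      · exact Or.inr ⟨h1, h2⟩
      · exact Or.inl ⟨h2, h1⟩
      · exfalso; linarith
  have hint : ∀ e, Integrable ((I e).indicator (fun _ => (1 : ℝ))) (volume : Measure ℝ) := by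
    intro e
    rw [integrable_indicator_iff measurableSet_Ico]
    exact integrableOn_const (by rw [Real.volume_Ico]; exact ENNReal.ofReal_ne_top) (by simp)
  have hval : ∀ e, ∫ t, (I e).indicator (fun _ => (1 : ℝ)) t = |g e.1 - g e.2| := by
    intro e
    rw [integral_indicator measurableSet_Ico, setIntegral_const, smul_eq_mul, mul_one]
    simp only [Measure.real, Real.volume_Ico]
    rw [ENNReal.toReal_ofReal (by simp), max_sub_min_eq_abs]
    exact abs_sub_comm _ _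
  calc (b - a) * k = ∫ t in Set.Ico a b, k := by
        rw [setIntegral_const, smul_eq_mul, Measure.real, Real.volume_Ico,
          ENNReal.toReal_ofReal (by linarith)]
    _ ≤ ∫ t in Set.Ico a b, ∑ e ∈ Sh, (I e).indicator (fun _ => (1 : ℝ)) t := by
        apply setIntegral_mono_on
        · exact integrableOn_const (by rw [Real.volume_Ico]; exact ENNReal.ofReal_ne_top) (by simp)
        · exact (integrable_finsetSum _ fun e _ => hint e).integrableOn
        · exact measurableSet_Ico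
        · intro t ht
          rw [← hcount t]
          exact h t ht.1 ht.2
    _ ≤ ∫ t, ∑ e ∈ Sh, (I e).indicator (fun _ => (1 : ℝ)) t := by
        apply setIntegral_le_integral (integrable_finsetSum _ fun e _ => hint e)
        filter_upwards with t
        exact sum_nonneg fun e _ => Set.indicator_nonneg (fun _ _ => zero_le_one) _
    _ = ∑ e ∈ Sh, |g e.1 - g e.2| := by
        rw [integral_finsetSum _ fun e _ => hint e]
        exact sum_congr rfl fun e _ => hval e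

end

section

variable {V : Type*} [DecidableEq V]

/-- the constant of one region -/
noncomputable def cR (p C' : ℝ) : ℝ := (1 / 4) ^ p * (2 * C') ^ (-(p - 1)) / 2

lemma cR_pos {p C' : ℝ} (hC' : 1 ≤ C') : 0 < cR p C' := by
  unfold cR
  have : 0 < 2 * C' := by linarith
  positivity

lemma region {p C' : ℝ} (hp : 1 ≤ p) (hC' : 1 ≤ C') (S : Finset V) (F : Finset (V × V))
    (hFS : ∀ e ∈ F, e.1 ∈ S ∧ e.2 ∈ S)
    (hiso : ∀ A ⊆ S, A.Nonempty → 2 * A.card ≤ S.card → (A.card : ℝ) ^ (1 - 1 / (2 * p)) ≤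
      ((F.filter fun e => (e.1 ∈ A ∧ e.2 ∉ A) ∨ (e.1 ∉ A ∧ e.2 ∈ A)).card : ℝ))
    (hsp : ∀ A ⊂ S, ((F.filter fun e => e.1 ∈ A ∧ e.2 ∈ A).card : ℝ) ≤ C' * A.card)
    (g : V → ℝ) {a b : ℝ} (hab : a < b) {j : ℕ} (hlow : ∀ t, a ≤ t → t < b → 2 ^ j ≤ cnt S g t)
    (hup : cnt S g a < 2 ^ (j + 1)) (hhalf : 2 * cnt S g a ≤ S.card) :
    cR p C' * ((b - a) ^ p * ((2 : ℝ) ^ j) ^ (1 / 2 : ℝ)) ≤ ∑ e ∈ F, |g e.1 - g e.2| ^ p := by
  classical
  have hp0 : 0 < p := by linarith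
  obtain ⟨δ, hδ⟩ : ∃ δ, δ = b - a := ⟨_, rfl⟩
  have hδ0 : 0 < δ := by linarith
  rw [← hδ]
  obtain ⟨x, hx⟩ : ∃ x : ℝ, x = (2 : ℝ) ^ j := ⟨_, rfl⟩
  have hx1 : 1 ≤ x := by rw [hx]; exact one_le_pow₀ (by norm_num)
  have hx0 : 0 < x := by linarith
  rw [← hx]
  set θ : ℝ := 1 - 1 / (2 * p) with hθ
  have hθ2 : 1 / 2 ≤ θ := by
    have : 1 / (2 * p) ≤ 1 / 2 := by
      apply one_div_le_one_div_of_le (by norm_num); linarith
    rw [hθ]; linarith
  set Lg := F.filter fun e => δ / 4 ≤ |g e.1 - g e.2| with hLg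
  have hnn : ∀ e ∈ F, 0 ≤ |g e.1 - g e.2| ^ p := fun e _ => by positivity
  have h4p : (0 : ℝ) < (1 / 4) ^ p := Real.rpow_pos_of_pos (by norm_num) _
  have h2C : (0 : ℝ) < 2 * C' := by linarith
  have hC1 : (2 * C') ^ (-(p - 1)) ≤ 1 :=
    Real.rpow_le_one_of_one_le_of_nonpos (by linarith) (by linarith)
  have hC0 : 0 < (2 * C') ^ (-(p - 1)) := Real.rpow_pos_of_pos h2C _
  have hδp : 0 < δ ^ p := Real.rpow_pos_of_pos hδ0 _
  have hx12 : x ^ (1 / 2 : ℝ) ≤ x ^ θ := Real.rpow_le_rpow_of_exponent_le hx1 hθ2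
  have hx12' : 0 < x ^ (1 / 2 : ℝ) := Real.rpow_pos_of_pos hx0 _
  rcases le_or_gt (x ^ θ / 2) (Lg.card : ℝ) with hcase | hcase
  · -- many long edges
    have h1 : (Lg.card : ℝ) * (δ / 4) ^ p ≤ ∑ e ∈ F, |g e.1 - g e.2| ^ p := by
      calc (Lg.card : ℝ) * (δ / 4) ^ p = ∑ e ∈ Lg, (δ / 4) ^ p := by
            rw [sum_const, nsmul_eq_mul]
        _ ≤ ∑ e ∈ Lg, |g e.1 - g e.2| ^ p := by
            refine sum_le_sum fun e he => ?_
            exact Real.rpow_le_rpow (by positivity) (mem_filter.1 he).2 hp0.le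
        _ ≤ _ := sum_le_sum_of_subset_of_nonneg (filter_subset _ _) fun e he _ => hnn e he
    refine le_trans ?_ h1
    have h2 : (δ / 4) ^ p = (1 / 4) ^ p * δ ^ p := by
      rw [← Real.mul_rpow (by norm_num) hδ0.le]; congr 1; ring
    rw [h2]
    have h3 : cR p C' ≤ (1 / 4) ^ p / 2 := by
      unfold cR
      have : (1 / 4) ^ p * (2 * C') ^ (-(p - 1)) ≤ (1 / 4) ^ p * 1 :=
        mul_le_mul_of_nonneg_left hC1 h4p.le
      linarith
    calc cR p C' * (δ ^ p * x ^ (1 / 2 : ℝ)) ≤ (1 / 4) ^ p / 2 * (δ ^ p * x ^ θ) := by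
          apply mul_le_mul h3 (mul_le_mul_of_nonneg_left hx12 hδp.le) (by positivity)
            (by positivity)
      _ = (x ^ θ / 2) * ((1 / 4) ^ p * δ ^ p) := by ring
      _ ≤ (Lg.card : ℝ) * ((1 / 4) ^ p * δ ^ p) :=
          mul_le_mul_of_nonneg_right hcase (by positivity)
  · -- few long edges
    set A0 := S.filter fun y => a < g y with hA0
    have hA0c : A0.card = cnt S g a := rfl
    have hcnta : 2 ^ j ≤ cnt S g a := hlow a le_rfl hab
    have h2jpos : 0 < 2 ^ j := by positivity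
    have hA0S : A0 ⊂ S := by
      refine (filter_subset _ _).ssubset_of_ne ?_
      intro h
      have : A0.card = S.card := congrArg card h
      omega
    set Sh := F.filter fun e => |g e.1 - g e.2| < δ / 4 ∧ a < g e.1 ∧ a < g e.2 with hSh
    have hShc : (Sh.card : ℝ) ≤ C' * (2 * x) := by
      have h1 : Sh ⊆ F.filter fun e => e.1 ∈ A0 ∧ e.2 ∈ A0 := by
        intro e he
        rw [hSh, mem_filter] at he
        have := hFS e he.1
        exact mem_filter.2 ⟨he.1, mem_filter.2 ⟨this.1, he.2.2.1⟩, mem_filter.2 ⟨this.2, he.2.2.2⟩⟩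
      have h2 : (Sh.card : ℝ) ≤ ((F.filter fun e => e.1 ∈ A0 ∧ e.2 ∈ A0).card : ℝ) := by
        exact_mod_cast card_le_card h1
      have h3 := hsp A0 hA0S
      have h4 : (A0.card : ℝ) ≤ 2 * x := by
        have : A0.card ≤ 2 ^ (j + 1) := by rw [hA0c]; exact hup.le
        have h5 : (A0.card : ℝ) ≤ ((2 ^ (j + 1) : ℕ) : ℝ) := by exact_mod_cast this
        rw [hx]
        refine h5.trans (le_of_eq ?_)
        push_cast; ring
      calc (Sh.card : ℝ) ≤ C' * A0.card := h2.trans h3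
        _ ≤ C' * (2 * x) := mul_le_mul_of_nonneg_left h4 (by linarith)
    have hcross : ∀ t, a + δ / 4 ≤ t → t < b - δ / 4 → x ^ θ / 2 ≤ ((Sh.filter fun e =>
        (t < g e.1 ∧ g e.2 ≤ t) ∨ (g e.1 ≤ t ∧ t < g e.2)).card : ℝ) := by
      intro t ht1 ht2
      set At := S.filter fun y => t < g y with hAt
      have hAtc : At.card = cnt S g t := rfl
      have hct : 2 ^ j ≤ At.card := hlow t (by linarith) (by linarith)
      have hAne : At.Nonempty := by rw [← card_pos]; omega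
      have hAhalf : 2 * At.card ≤ S.card := by
        have := cnt_anti S g (show a ≤ t by linarith)
        omega
      have h1 := hiso At (filter_subset _ _) hAne hAhalf
      have h2 : x ^ θ ≤ (At.card : ℝ) ^ θ := by
        apply Real.rpow_le_rpow hx0.le _ (by linarith)
        rw [hx]
        exact_mod_cast hct
      have h3 : (F.filter fun e => (e.1 ∈ At ∧ e.2 ∉ At) ∨ (e.1 ∉ At ∧ e.2 ∈ At)) ⊆
          Lg ∪ (Sh.filter fun e => (t < g e.1 ∧ g e.2 ≤ t) ∨ (g e.1 ≤ t ∧ t < g e.2)) := by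
        intro e he
        rw [mem_filter] at he
        obtain ⟨heF, he2⟩ := he
        have heS := hFS e heF
        rw [mem_union]
        by_cases hlong : δ / 4 ≤ |g e.1 - g e.2|
        · left; exact mem_filter.2 ⟨heF, hlong⟩
        · right
          push Not at hlong
          have habs := abs_lt.1 hlong
          rcases he2 with ⟨h4, h5⟩ | ⟨h4, h5⟩
          · have h6 : t < g e.1 := (mem_filter.1 h4).2
            have h7 : g e.2 ≤ t := by
              by_contra h8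
              push Not at h8
              exact h5 (mem_filter.2 ⟨heS.2, h8⟩)
            refine mem_filter.2 ⟨mem_filter.2 ⟨heF, hlong, by linarith, by linarith [habs.2]⟩,
              Or.inl ⟨h6, h7⟩⟩
          · have h6 : t < g e.2 := (mem_filter.1 h5).2
            have h7 : g e.1 ≤ t := by
              by_contra h8
              push Not at h8
              exact h4 (mem_filter.2 ⟨heS.1, h8⟩)
            refine mem_filter.2 ⟨mem_filter.2 ⟨heF, hlong, by linarith [habs.1], by linarith⟩,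
              Or.inr ⟨h7, h6⟩⟩
      have h4 : ((F.filter fun e => (e.1 ∈ At ∧ e.2 ∉ At) ∨ (e.1 ∉ At ∧ e.2 ∈ At)).card : ℝ) ≤
          (Lg.card : ℝ) + ((Sh.filter fun e =>
            (t < g e.1 ∧ g e.2 ≤ t) ∨ (g e.1 ≤ t ∧ t < g e.2)).card : ℝ) := by
        exact_mod_cast (card_le_card h3).trans (card_union_le _ _)
      linarith
    have hInt := crossing_integral Sh g (a := a + δ / 4) (b := b - δ / 4) (k := x ^ θ / 2)
      (by linarith) hcross
    have hlen : (b - δ / 4 - (a + δ / 4)) * (x ^ θ / 2) = δ * x ^ θ / 4 := by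
      have : b - δ / 4 - (a + δ / 4) = δ / 2 := by rw [hδ]; ring
      rw [this]; ring
    rw [hlen] at hInt
    have hxθ : 0 < x ^ θ := Real.rpow_pos_of_pos hx0 _
    have hpm : (∑ e ∈ Sh, |g e.1 - g e.2|) ^ p ≤
        (Sh.card : ℝ) ^ (p - 1) * ∑ e ∈ Sh, |g e.1 - g e.2| ^ p := by
      have := Real.rpow_sum_le_const_mul_sum_rpow (s := Sh)
        (f := fun e : V × V => g e.1 - g e.2) hp
      exact this
    have h5 : ∑ e ∈ Sh, |g e.1 - g e.2| ^ p ≤ ∑ e ∈ F, |g e.1 - g e.2| ^ p :=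
      sum_le_sum_of_subset_of_nonneg (filter_subset _ _) fun e he _ => hnn e he
    obtain ⟨Es, hEs⟩ : ∃ Es, Es = ∑ e ∈ F, |g e.1 - g e.2| ^ p := ⟨_, rfl⟩
    have hEs0 : 0 ≤ Es := by rw [hEs]; exact sum_nonneg hnn
    rw [← hEs] at h5 ⊢
    have h6 : (δ * x ^ θ / 4) ^ p ≤ (C' * (2 * x)) ^ (p - 1) * Es := by
      calc (δ * x ^ θ / 4) ^ p ≤ (∑ e ∈ Sh, |g e.1 - g e.2|) ^ p :=
            Real.rpow_le_rpow (by positivity) hInt hp0.le
        _ ≤ (Sh.card : ℝ) ^ (p - 1) * ∑ e ∈ Sh, |g e.1 - g e.2| ^ p := hpm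
        _ ≤ (C' * (2 * x)) ^ (p - 1) * Es := by
            apply mul_le_mul (Real.rpow_le_rpow (by positivity) hShc (by linarith)) h5
              (sum_nonneg fun e _ => by positivity) (by positivity)
    have h7 : (δ * x ^ θ / 4) ^ p = (1 / 4) ^ p * δ ^ p * x ^ (p - 1 / 2) := by
      have e1 : δ * x ^ θ / 4 = (1 / 4 * δ) * x ^ θ := by ring
      rw [e1, Real.mul_rpow (by positivity) hxθ.le, Real.mul_rpow (by norm_num) hδ0.le,
        ← Real.rpow_mul hx0.le]
      congr 2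
      rw [hθ]; field_simp
    have h8 : (C' * (2 * x)) ^ (p - 1) = (2 * C') ^ (p - 1) * x ^ (p - 1) := by
      rw [← Real.mul_rpow h2C.le hx0.le]; congr 1; ring
    rw [h7, h8] at h6
    have h9 : x ^ (p - 1 / 2) = x ^ (p - 1) * x ^ (1 / 2 : ℝ) := by
      rw [← Real.rpow_add hx0]; congr 1; ring
    rw [h9] at h6
    have hxp : 0 < x ^ (p - 1) := Real.rpow_pos_of_pos hx0 _
    have h2Cp : 0 < (2 * C') ^ (p - 1) := Real.rpow_pos_of_pos h2C _
    have h10 : (1 / 4) ^ p * δ ^ p * x ^ (1 / 2 : ℝ) ≤ (2 * C') ^ (p - 1) * Es := by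
      have : x ^ (p - 1) * ((1 / 4) ^ p * δ ^ p * x ^ (1 / 2 : ℝ)) ≤
          x ^ (p - 1) * ((2 * C') ^ (p - 1) * Es) := by linarith
      exact le_of_mul_le_mul_left this hxp
    have h11 : (2 * C') ^ (-(p - 1)) * (2 * C') ^ (p - 1) = 1 := by
      rw [← Real.rpow_add h2C]; simp
    have h12 : (2 * C') ^ (-(p - 1)) * ((1 / 4) ^ p * δ ^ p * x ^ (1 / 2 : ℝ)) ≤ Es := by
      calc (2 * C') ^ (-(p - 1)) * ((1 / 4) ^ p * δ ^ p * x ^ (1 / 2 : ℝ)) ≤
            (2 * C') ^ (-(p - 1)) * ((2 * C') ^ (p - 1) * Es) :=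
              mul_le_mul_of_nonneg_left h10 hC0.le
        _ = Es := by rw [← mul_assoc, h11, one_mul]
    have h13 : 0 ≤ (2 * C') ^ (-(p - 1)) * ((1 / 4) ^ p * δ ^ p * x ^ (1 / 2 : ℝ)) := by
      positivity
    calc cR p C' * (δ ^ p * x ^ (1 / 2 : ℝ)) =
          (2 * C') ^ (-(p - 1)) * ((1 / 4) ^ p * δ ^ p * x ^ (1 / 2 : ℝ)) / 2 := by
            unfold cR; ring
      _ ≤ Es := by linarith

/-- the ratio of the geometric series -/
noncomputable def rhoR (p : ℝ) : ℝ := (2 : ℝ) ^ (-(1 / (2 * p)))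

lemma rhoR_pos (p : ℝ) : 0 < rhoR p := Real.rpow_pos_of_pos (by norm_num) _

lemma rhoR_lt {p : ℝ} (hp : 1 ≤ p) : rhoR p < 1 := by
  unfold rhoR
  apply Real.rpow_lt_one_of_one_lt_of_neg (by norm_num)
  have : 0 < 1 / (2 * p) := by positivity
  linarith

lemma upper {p C' : ℝ} (hp : 1 ≤ p) (hC' : 1 ≤ C') (S : Finset V) (F : Finset (V × V))
    (hFS : ∀ e ∈ F, e.1 ∈ S ∧ e.2 ∈ S)
    (hiso : ∀ A ⊆ S, A.Nonempty → 2 * A.card ≤ S.card → (A.card : ℝ) ^ (1 - 1 / (2 * p)) ≤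
      ((F.filter fun e => (e.1 ∈ A ∧ e.2 ∉ A) ∨ (e.1 ∉ A ∧ e.2 ∈ A)).card : ℝ))
    (hsp : ∀ A ⊂ S, ((F.filter fun e => e.1 ∈ A ∧ e.2 ∈ A).card : ℝ) ≤ C' * A.card)
    (g : V → ℝ) {m : ℝ} (hm : 2 * cnt S g m ≤ S.card) {u : V} (hu : u ∈ S) :
    g u - m ≤ ((∑ e ∈ F, |g e.1 - g e.2| ^ p) / cR p C') ^ (1 / p) / (1 - rhoR p) := by
  have hp0 : 0 < p := by linarith
  have hc0 := cR_pos (p := p) hC'
  have hρ0 := rhoR_pos p
  have hρ1 := rhoR_lt hp
  obtain ⟨Es, hEs⟩ : ∃ Es, Es = ∑ e ∈ F, |g e.1 - g e.2| ^ p := ⟨_, rfl⟩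
  have hEs0 : 0 ≤ Es := by rw [hEs]; exact sum_nonneg fun e _ => by positivity
  rw [← hEs]
  obtain ⟨B, hB⟩ : ∃ B, B = (Es / cR p C') ^ (1 / p) := ⟨_, rfl⟩
  have hB0 : 0 ≤ B := by rw [hB]; positivity
  rw [← hB]
  choose τ hτ1 hτ2 hτ3 using fun j : ℕ => exists_tau S g m (k := 2 ^ j) (by positivity)
  have hstep : ∀ j, τ j - τ (j + 1) ≤ B * rhoR p ^ j := by
    intro j
    rcases le_or_gt (τ j) (τ (j + 1)) with h | h
    · have : 0 ≤ B * rhoR p ^ j := by positivity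
      linarith
    · have hreg := region hp hC' S F hFS hiso hsp g h (j := j)
        (fun t ht1 ht2 => hτ3 j t (le_trans (hτ1 (j + 1)) ht1) ht2) (hτ2 (j + 1))
        (le_trans (Nat.mul_le_mul_left 2 (cnt_anti S g (hτ1 (j + 1)))) hm)
      rw [← hEs] at hreg
      obtain ⟨x, hx⟩ : ∃ x : ℝ, x = (2 : ℝ) ^ j := ⟨_, rfl⟩
      have hx0 : 0 < x := by rw [hx]; positivity
      rw [← hx] at hreg
      obtain ⟨δ, hδ⟩ : ∃ δ, δ = τ j - τ (j + 1) := ⟨_, rfl⟩
      have hδ0 : 0 < δ := by linarith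
      rw [← hδ] at hreg ⊢
      have hxh : 0 < x ^ (1 / 2 : ℝ) := Real.rpow_pos_of_pos hx0 _
      have h1 : δ ^ p ≤ Es / cR p C' * x ^ (-(1 / 2 : ℝ)) := by
        rw [Real.rpow_neg hx0.le, ← div_eq_mul_inv, le_div_iff₀ hxh, le_div_iff₀ hc0]
        linarith
      have h2 : δ = (δ ^ p) ^ (1 / p) := by
        rw [← Real.rpow_mul hδ0.le, mul_one_div_cancel hp0.ne', Real.rpow_one]
      have h3 : x ^ (-(1 / 2 : ℝ) * (1 / p)) = rhoR p ^ j := by
        unfold rhoR
        rw [hx, ← Real.rpow_natCast, ← Real.rpow_natCast, ← Real.rpow_mul (by norm_num),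
          ← Real.rpow_mul (by norm_num)]
        congr 1
        field_simp
      rw [h2]
      calc (δ ^ p) ^ (1 / p) ≤ (Es / cR p C' * x ^ (-(1 / 2 : ℝ))) ^ (1 / p) :=
            Real.rpow_le_rpow (by positivity) h1 (by positivity)
        _ = B * rhoR p ^ j := by
            rw [Real.mul_rpow (by positivity) (by positivity), ← hB, ← Real.rpow_mul hx0.le, h3]
  have hsum : ∀ n, τ 0 ≤ τ n + B * ∑ j ∈ range n, rhoR p ^ j := by
    intro n
    induction n with
    | zero => simp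
    | succ n ih =>
      rw [sum_range_succ, mul_add]
      have := hstep n
      linarith
  have hgeom : ∀ n, ∑ j ∈ range n, rhoR p ^ j ≤ 1 / (1 - rhoR p) := by
    intro n
    rw [le_div_iff₀ (by linarith), ← neg_sub (rhoR p) 1, mul_neg, geom_sum_mul]
    have : 0 ≤ rhoR p ^ n := by positivity
    linarith
  have hlast : τ S.card ≤ m := by
    by_contra hcon
    push Not at hcon
    have h1 := hτ3 S.card m le_rfl hcon
    have h2 : S.card < 2 ^ S.card := Nat.lt_two_pow_self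
    omega
  have hfirst : g u ≤ τ 0 := by
    have h1 := hτ2 0
    rw [pow_zero, Nat.lt_one_iff] at h1
    unfold cnt at h1
    rw [card_eq_zero, filter_eq_empty_iff] at h1
    exact not_lt.1 (h1 hu)
  have h1 := hsum S.card
  have h2 := mul_le_mul_of_nonneg_left (hgeom S.card) hB0
  rw [mul_one_div] at h2
  linarith

/-- the constant in `resist` -/
noncomputable def KR (p C' : ℝ) : ℝ := (2 / (1 - rhoR p)) ^ p / cR p C'

lemma KR_pos {p C' : ℝ} (hp : 1 ≤ p) (hC' : 1 ≤ C') : 0 < KR p C' := by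
  unfold KR
  have h1 := cR_pos (p := p) hC'
  have h2 : 0 < 1 - rhoR p := by have := rhoR_lt hp; linarith
  positivity

/-- Edge isoperimetry of dimension `2 p` bounds the oscillation by the `p`-energy. -/
theorem resist {p C' : ℝ} (hp : 1 ≤ p) (hC' : 1 ≤ C') (S : Finset V) (F : Finset (V × V))
    (hFS : ∀ e ∈ F, e.1 ∈ S ∧ e.2 ∈ S)
    (hiso : ∀ A ⊆ S, A.Nonempty → 2 * A.card ≤ S.card → (A.card : ℝ) ^ (1 - 1 / (2 * p)) ≤
      ((F.filter fun e => (e.1 ∈ A ∧ e.2 ∉ A) ∨ (e.1 ∉ A ∧ e.2 ∈ A)).card : ℝ))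
    (hsp : ∀ A ⊂ S, ((F.filter fun e => e.1 ∈ A ∧ e.2 ∈ A).card : ℝ) ≤ C' * A.card)
    (g : V → ℝ) {u v : V} (hu : u ∈ S) (hv : v ∈ S) :
    |g u - g v| ^ p ≤ KR p C' * ∑ e ∈ F, |g e.1 - g e.2| ^ p := by
  have hp0 : 0 < p := by linarith
  have hc0 := cR_pos (p := p) hC'
  have hρ1 : 0 < 1 - rhoR p := by have := rhoR_lt hp; linarith
  obtain ⟨m, hm1, hm2⟩ := exists_median S ⟨u, hu⟩ g
  have hneg : ∑ e ∈ F, |(fun x => -g x) e.1 - (fun x => -g x) e.2| ^ p =
      ∑ e ∈ F, |g e.1 - g e.2| ^ p := by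
    refine sum_congr rfl fun e _ => ?_
    congr 1
    simp only
    rw [show -g e.1 - -g e.2 = -(g e.1 - g e.2) by ring, abs_neg]
  have hup := fun {w : V} (hw : w ∈ S) => upper hp hC' S F hFS hiso hsp g hm1 hw
  have hdn := fun {w : V} (hw : w ∈ S) =>
    upper hp hC' S F hFS hiso hsp (fun x => -g x) (m := -m) hm2 hw
  rw [hneg] at hdn
  obtain ⟨Es, hEs⟩ : ∃ Es, Es = ∑ e ∈ F, |g e.1 - g e.2| ^ p := ⟨_, rfl⟩
  have hEs0 : 0 ≤ Es := by rw [hEs]; exact sum_nonneg fun e _ => by positivity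
  rw [← hEs] at hup hdn ⊢
  obtain ⟨Q, hQ⟩ : ∃ Q, Q = (Es / cR p C') ^ (1 / p) / (1 - rhoR p) := ⟨_, rfl⟩
  rw [← hQ] at hup hdn
  have h1 := hup hu
  have h2 := hup hv
  have h3 := hdn hu
  have h4 := hdn hv
  have h5 : |g u - g v| ≤ 2 * Q := by
    rw [abs_le]
    constructor <;> linarith
  calc |g u - g v| ^ p ≤ (2 * Q) ^ p := Real.rpow_le_rpow (abs_nonneg _) h5 hp0.le
    _ = (2 / (1 - rhoR p) * (Es / cR p C') ^ (1 / p)) ^ p := by rw [hQ]; congr 1; ring
    _ = (2 / (1 - rhoR p)) ^ p * (Es / cR p C') := by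
        rw [Real.mul_rpow (by positivity) (by positivity), ← Real.rpow_mul (by positivity),
          one_div_mul_cancel hp0.ne', Real.rpow_one]
    _ = KR p C' * Es := by unfold KR; ring

end

end Vale.Agent.P249
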