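import Vale.Agent.P249.Resist
import Vale.Agent.P249.Greedy

/-!
Sparse `p`-resistance spanners (P249).
-/

namespace Vale.Agent.P249

open Finset

universe u

theorem sparse {p : ℝ} (hp : 1 ≤ p) : ∃ C : ℝ, 1 ≤ C ∧
    ∀ (V : Type u) [DecidableEq V] (S : Finset V) (G : Finset (V × V)),
      (∀ e ∈ G, e.1 ∈ S ∧ e.2 ∈ S) → ∃ H ⊆ G, (H.card : ℝ) ≤ C * S.card ∧
        ∀ e ∈ G, ∀ g : V → ℝ, |g e.1 - g e.2| ^ p ≤ C * ∑ e' ∈ H, |g e'.1 - g e'.2| ^ p := by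
  refine sparse_of (K := KR p (2 / k0 p)) hp ?_
  intro V _ S F hFS hiso hsp g x y hx hy
  exact resist hp (by have := two_le_kap hp; linarith) S F hFS hiso hsp g hx hy

end Vale.Agent.P249
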